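import Vale.Agent.P183W3.Stage
import Vale.Agent.P183W5.W4
import Vale.Agent.P183WD.W5D
import Vale.Agent.P183WA.Main
import Vale.Agent.P183IS.Main
import Vale.Agent.P183FG.Main
import Vale.Agent.P183CF.Res
import Vale.Agent.P183CF.Lit
import Vale.Agent.P183CX.WCl
import Vale.Agent.P183CX.AffP
import Vale.Agent.P183AU.Lifts
import Vale.Agent.P183RL.Flip
import Vale.Agent.P183NC.Main
import Vale.Agent.P183AL.Block
import Vale.Agent.P183BD.WStep

/-!
The classical block from its two remaining parts.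
-/

namespace Vale.Agent.P183W3

open Vale.Agent.P183NK Vale.Agent.P183NK.FS Vale.Agent.P183W5

theorem fam : FAM 18 := fam_of_global P183FG.famg

theorem w3' : W3 := w3 n1 n2 fam bas P183IS.iso_three

theorem deg : DEG := fun _ _ _ _ _ _ _ _ _ h => let ⟨m, _, hm⟩ := h.exists_deg; ⟨m, hm⟩

theorem degs : DEGS := fun _ _ _ _ _ _ S Z J n hZ hr hJ h1 h2 => by
  obtain ⟨m, -, hm⟩ := hJ.exists_deg
  have h3 : Z ≤ S.cent J 1 := fun z hz => mem_cent_one.2 fun d hd =>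
    (((h2 ▸ le_sup_left : J ≤ S.cent Z 1) hd).2.2 z hz).symm
  obtain ⟨k1, -, k3⟩ := hJ.sup_psc hZ.psc h3 h1 hm
  rw [h2] at k1 k3
  rwa [← k1.deg_unique k3 (hZ.psc.bas hr).2.2]

theorem w4' : W4 := w4 n2 bas degs

theorem bas_mono {c c' : ℕ} (h : BAS c) (hc : c ≤ c') : BAS c' := fun p _ V _ _ _ S D e r h1 h2 =>
  let ⟨k1, k2, k3, k4⟩ := h p V S D e r h1 h2
  ⟨k1, k2, k3, fun l => k4 (hc.trans l)⟩

theorem n1_mono {c c' : ℕ} (h : N1 c) (hc : c ≤ c') : N1 c' :=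
  fun p _ V _ _ _ S J e m h1 h2 h3 h4 => h p V S J e m h1 h2 h3 (hc.trans h4)

theorem w5d' : W5D := P183WD.w5d n2 (bas_mono bas (by norm_num)) P183IS.iso_three

theorem blockCl_of_same (h5 : W5) (hs : SameChar) : BlockCl :=
  blockCl_of lit (wcl n1 bas) P183WA.w12 w3' w4' h5 P183AU.lifts hs (P183CX.cross_of bas)

theorem main_of_same (h5 : W5) (hs : SameChar) :
    ∃ d : ℕ, ∀ c : ℕ, ∃ (L : Type) (_ : Lattice L) (_ : BoundedOrder L) (_ : Finite L),
      P183A.NoMod (⊥ : L) ⊤ ∧ ¬ GIK (fun S _ => Known d c S) L :=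
  main_of_blocks P183AL.blockAlt P183BD.blockLie (blockCl_of_same h5 hs)

end Vale.Agent.P183W3
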