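import Vale.Agent.P183RT.RT
import Vale.Agent.P183W5.Defs

/-!
The commutant of `E_y` in `A`: basic facts.
-/

set_option linter.unusedSectionVars false

namespace Vale.Agent.P183W3

open Subgroup Vale.Agent.P183A Vale.Agent.P183NK Vale.Agent.P183NK.FS
open scoped commutatorElement

variable {p : ℕ} [Fact p.Prime] {V : Type} [AddCommGroup V] [Module (ZMod p) V]

/-- The structure theorems for one form space. -/
structure Hy (c : ℕ) (S : FS p V) : Prop where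
  two : 2 ≤ c
  n1 : ∀ (J : S.NR) (e : S.E) (m : ℕ), S.Simp J e → S.TC J e → S.Deg J e m → c ≤ m →
    S.om J ≤ ⁅S.om J, S.om J⁆ ∧ ∀ X ≤ S.iso J, Nm (S.om J) X →
      (∀ g ∈ X, ∀ x ∈ J, g.1 * x = x * g.1) ∨ S.om J ≤ X
  n2 : ∀ (J : S.NR) (e : S.E) (m : ℕ), S.Simp J e → S.TC J e → S.Deg J e m → c ≤ m →
    ∀ R ≤ J, (∀ x ∈ R, S.st x ∈ R) → S.NmR (S.om J) R → R ≤ S.ctr J e ∨ R = J
  fam : ∀ (J : S.NR) (e : S.E), S.Simp J e → S.TC J e → ∀ x ∈ J, S.st x = x → x ∉ S.ctr J e →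
    Set.ncard {z | z ∈ S.ctr J e ∧ S.st z = z} ≤
      c * Set.ncard {y | ∃ g ∈ S.om J, y = g.1 * x * g⁻¹.1}
  bas : ∀ (D : S.NR) (e : S.E) (r : ℕ), S.Scal D e → S.Rank D e r →
    S.Simp (S.cent D e) e ∧ S.ctr (S.cent D e) e = D ∧ S.Deg (S.cent D e) e r ∧
      (c ≤ r → S.TC (S.cent D e) e)
  iso3 : ∀ (Z : S.NR), S.Scal Z 1 → ∀ e : Fin 3 → S.E, (∀ i, e i ∈ S.cent Z 1 ∧ S.st (e i) = e i ∧
    e i * e i = e i) → (∀ i j, i ≠ j → e i * e j = 0) →
    (∀ i j, Nat.card (LinearMap.range (e i)) = Nat.card (LinearMap.range (e j))) →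
    ∃ i j, i ≠ j ∧ ∃ t ∈ S.iso (S.cent Z 1), t * t = 1 ∧ t.1 * e i = e j * t.1 ∧
      t.1 * (1 - e i - e j) = 1 - e i - e j

/-- A large simple ring with involution. -/
structure Big (c : ℕ) (S : FS p V) (J : S.NR) (e : S.E) : Prop where
  simp : S.Simp J e
  tc : S.TC J e
  deg : ∃ m, S.Deg J e m ∧ c ≤ m

variable {S : FS p V} [Finite V] {c n : ℕ} {J D Z : S.NR} {e x : S.E} {H a b y y' : Subgroup S.Eˣ}

theorem inv_comm {g : S.Eˣ} (h : g.1 * x = x * g.1) : g⁻¹.1 * x = x * g⁻¹.1 :=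
  (Commute.units_inv_left (u := g) h).eq

theorem conj_eq {g : S.Eˣ} (h : g.1 * x = x * g.1) : g.1 * x * g⁻¹.1 = x := by
  rw [h, mul_assoc, Units.mul_inv, mul_one]

theorem comm_of_conj {g : S.Eˣ} (h : g.1 * x * g⁻¹.1 = x) : g.1 * x = x * g.1 := by
  conv_rhs => rw [← h]
  simp [mul_assoc]

theorem st_comm {g : S.Eˣ} (hg : S.st g.1 * g.1 = 1) (h : g⁻¹.1 * x = x * g⁻¹.1) :
    g.1 * S.st x = S.st x * g.1 := by
  have := congrArg S.st h
  rw [st_mul, st_mul, ← st_eq_inv hg, st_st] at this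
  exact this.symm

theorem exists_nc (hs : S.Simp J e) {m : ℕ} (hd : S.Deg J e m) (h2 : 2 ≤ m) :
    ∃ x ∈ J, x ∉ S.ctr J e := by
  by_contra h
  push Not at h
  have := hs.deg_unique hd (hs.deg_one.2 (le_antisymm inf_le_left h))
  omega

/-- the commutant of a set in a subring -/
def cmt (J : S.NR) (s : Set S.E) : S.NR where
  carrier := {y | y ∈ J ∧ ∀ x ∈ s, y * x = x * y}
  add_mem' := fun ha hb => ⟨add_mem ha.1 hb.1, fun x hx => by
    rw [add_mul, mul_add, ha.2 x hx, hb.2 x hx]⟩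
  zero_mem' := ⟨zero_mem _, by simp⟩
  mul_mem' := fun {a b} ha hb => ⟨mul_mem ha.1 hb.1, fun x hx => by
    rw [mul_assoc, hb.2 x hx, ← mul_assoc, ha.2 x hx, mul_assoc]⟩
  neg_mem' := fun ha => ⟨neg_mem ha.1, fun x hx => by rw [neg_mul, mul_neg, ha.2 x hx]⟩

theorem cmt_le {s : Set S.E} : cmt J s ≤ J := fun _ h => h.1

theorem st_cm {x y : S.E} (h : x * y = y * x) : S.st x * S.st y = S.st y * S.st x := by
  rw [← st_mul, ← h, st_mul]

namespace Big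

variable (hy : Hy c S) (h : Big c S J e)
include hy h

theorem n2 {R : S.NR} (h1 : R ≤ J) (h2 : ∀ x ∈ R, S.st x ∈ R) (h3 : S.NmR (S.om J) R) :
    R ≤ S.ctr J e ∨ R = J :=
  let ⟨m, h4, h5⟩ := h.deg
  hy.n2 J e m h.simp h.tc h4 h5 R h1 h2 h3

theorem nc : ∃ x ∈ J, x ∉ S.ctr J e :=
  let ⟨_, h4, h5⟩ := h.deg
  exists_nc h.simp h4 (hy.two.trans h5)

omit hy in
theorem nmR : S.NmR (S.om J) J := h.simp.toLoc.nmR_iso.mono (om_le_iso J)

omit hy in
theorem mem_ctr' (hx : x ∈ J) (hc : ∀ y ∈ J, x * y = y * x) : x ∈ S.ctr J e :=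
  ⟨hx, h.simp.left x hx, h.simp.right x hx, hc⟩

/-- `om J` is not central in `J`. -/
theorem om_nc : ¬ ∀ g ∈ S.om J, ∀ x ∈ J, g.1 * x = x * g.1 := fun hc => by
  have key : ∀ y ∈ J, (∀ w ∈ J, w * y = y * w → w * S.st y = S.st y * w) → y ∈ S.ctr J e := by
    intro y hy' h1
    rcases h.n2 hy (R := cmt J {y, S.st y}) cmt_le (fun w hw => ⟨h.simp.star w hw.1, by
        rintro _ (rfl | rfl)
        · simpa using st_cm (hw.2 (S.st _) (Or.inr rfl))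
        · exact st_cm (hw.2 y (Or.inl rfl))⟩)
      (fun g hg w hw => by rw [conj_eq (hc g hg w hw.1)]; exact hw) with e1 | e1
    · refine e1 ⟨hy', ?_⟩
      rintro _ (rfl | rfl)
      · rfl
      · exact h1 y hy' rfl
    · exact h.mem_ctr' hy' fun w hw => ((e1.ge hw).2 y (Or.inl rfl)).symm
  obtain ⟨x, hx, hn⟩ := h.nc hy
  have h1 := key (x + S.st x) (add_mem hx (h.simp.star x hx)) fun w _ hw => by
    rwa [st_add, st_st, add_comm]
  refine hn (key x hx fun w hw e1 => ?_)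
  have h2 := h1.2.2.2 w hw
  rw [add_mul, mul_add, e1] at h2
  exact (add_left_cancel h2).symm

/-- What commutes with `om J` commutes with `J`. -/
theorem om_span (hx : ∀ g ∈ S.om J, g.1 * x = x * g.1) : ∀ y ∈ J, y * x = x * y := by
  have hx' : ∀ g ∈ S.om J, ∀ w ∈ ({x, S.st x} : Set S.E), g.1 * w = w * g.1 := by
    rintro g hg _ (rfl | rfl)
    · exact hx g hg
    · exact st_comm (iso_uni (om_le_iso J hg)) (hx _ (inv_mem hg))
  rcases h.n2 hy (R := cmt J {x, S.st x}) cmt_le (fun w hw => ⟨h.simp.star w hw.1, by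
      rintro _ (rfl | rfl)
      · simpa using st_cm (hw.2 (S.st _) (Or.inr rfl))
      · exact st_cm (hw.2 x (Or.inl rfl))⟩)
    (fun g hg w hw => ⟨h.nmR g hg w hw.1, fun z hz => by
      rw [mul_assoc, hx' _ (inv_mem hg) z hz, ← mul_assoc, mul_assoc g.1, hw.2 z hz, ← mul_assoc,
        hx' g hg z hz]
      simp only [mul_assoc]⟩) with e1 | e1
  · refine absurd (fun g hg y hy' => ?_) (h.om_nc hy)
    have := (e1 (x := g.1 - 1) ⟨iso_sub (om_le_iso J hg), fun z hz => by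
      rw [sub_mul, mul_sub, hx' g hg z hz, one_mul, mul_one]⟩).2.2.2 y hy'
    rw [sub_mul, mul_sub, one_mul, mul_one] at this
    exact sub_left_injective this
  · exact fun y hy' => (e1.ge hy').2 x (Or.inl rfl)

end Big

theorem Hy.big (hy : Hy c S) (hD : S.Scal D e) {r : ℕ} (hr : S.Rank D e r) (hc : c ≤ r) :
    Big c S (S.cent D e) e :=
  let ⟨h1, _, h3, h4⟩ := hy.bas D e r hD hr
  ⟨h1, h4 hc, r, h3, hc⟩

/-- The commutant of `E_y` in `A`. -/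
def PP (S : FS p V) (Z : S.NR) (H y : Subgroup S.Eˣ) : S.NR :=
  S.cent Z 1 ⊓ S.cent (S.spanR (EE H y)) 1

theorem mem_PP : x ∈ PP S Z H y ↔ x ∈ S.cent Z 1 ∧ ∀ g ∈ EE H y, x * g.1 = g.1 * x :=
  and_congr_right fun _ => mem_cent_spanR

theorem PP_le : PP S Z H y ≤ S.cent Z 1 := inf_le_left

theorem one_mem_PP : (1 : S.E) ∈ PP S Z H y := ⟨one_mem_cent _, one_mem_cent _⟩

/-- The standing assumptions. -/
structure Cx (c : ℕ) (S : FS p V) (Z : S.NR) (n : ℕ) (H b a : Subgroup S.Eˣ) : Prop where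
  hy : Hy c S
  lc : S.LC Z n H b
  big : 8 * c ^ 3 < n
  hr : Hairy H a b
  irr : S.Irr Z a
  le : a ≤ b

namespace Cx

variable (h : Cx c S Z n H b a)
include h

theorem up (h1 : a ≤ y) (h2 : y ≤ b) : Cx c S Z n H b y :=
  ⟨h.hy, h.lc, h.big, h.hr.up h1, h.irr.mono h1, h2⟩

theorem scal : S.Scal Z 1 := h.lc.scal

theorem nm : NoMod H a := h.hr.nomod le_rfl h.le

theorem gam : a ≤ S.gam Z := h.le.trans h.lc.gam

theorem Hle : H ≤ a := h.hr.le

theorem EE_om : EE H a ≤ S.om (S.cent Z 1) := h.lc.EE_le_om h.hr le_rfl h.le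

theorem EE_iso : EE H a ≤ S.iso (S.cent Z 1) := h.lc.EE_le_iso h.hr le_rfl h.le

theorem om_le : S.om (S.cent Z 1) ≤ b := h.lc.om_le h.hr le_rfl h.le

theorem fix {v : V} (hv : ∀ g ∈ EE H a, g.1 v = v) : v = 0 :=
  AddSubgroup.mem_bot.1 ((h.lc.fixV_EE h.hr le_rfl h.le h.irr).le hv)

theorem four : 4 * c ≤ n := by
  have h1 := h.big
  have h2 : c ≤ c ^ 3 := Nat.le_self_pow (by norm_num) c
  omega

theorem bigA : Big c S (S.cent Z 1) 1 := h.hy.big h.scal h.lc.rank (by have := h.four; omega)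

theorem ctrA : S.ctr (S.cent Z 1) 1 = Z := (h.hy.bas Z 1 n h.scal h.lc.rank).2.1

theorem Z_le : Z ≤ PP S Z H a := fun _ hz =>
  mem_PP.2 ⟨h.scal.le_cent hz, fun _ hg => (iso_cent_comm (h.EE_iso hg) hz).symm⟩

theorem loc : S.Loc (PP S Z H a) 1 where
  mem := one_mem_PP
  ne := h.scal.ne
  symm := S.st_one
  left := fun _ _ => one_mul _
  right := fun _ _ => mul_one _
  star := fun x hx => ⟨h.scal.toLoc.cent.star x hx.1,
    st_mem_cent (st_spanR fun _ hg => iso_uni (h.EE_iso hg)) S.st_one hx.2⟩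

theorem nmA : S.NmR b (S.cent Z 1) := fun _ hg _ hx => gam_A h.scal (h.lc.gam hg) hx

theorem nmP : S.NmR a (PP S Z H a) := (h.nmA.mono h.le).inf (nmR_spanR (nm_EE H a)).cent_one

theorem st_conj {g : S.Eˣ} (hg : g ∈ b) (hx : x ∈ S.cent Z 1) :
    S.st (g.1 * x * g⁻¹.1) = g.1 * S.st x * g⁻¹.1 := gam_st h.scal (h.lc.gam hg) hx

theorem anti (h1 : a ≤ y) (h2 : y ≤ b) : PP S Z H y ≤ PP S Z H a :=
  inf_le_inf_left _ (cent_anti (spanR_mono (EE_mono h.nm (h.up h1 h2).nm h1)) 1)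

theorem uni_iso {g : S.Eˣ} (hg : g.1 ∈ PP S Z H a) (hu : S.st g.1 * g.1 = 1) :
    g ∈ S.iso (PP S Z H a) :=
  mem_iso.2 ⟨sub_mem hg one_mem_PP, hu, q_of_comm (X := {k | ∃ u ∈ EE H a, k = u.1}) (e := 1)
    S.st_one (one_mul 1) (by rintro _ ⟨u, hu, rfl⟩; exact (mem_iso.1 (h.EE_iso hu)).2)
    (fun v _ hv => h.fix fun u hu => hv _ ⟨u, hu, rfl⟩) hu (mul_one _)
    (by rintro _ ⟨u, hu, rfl⟩; exact (mem_PP.1 hg).2 u hu)⟩

theorem om_P_le : S.om (PP S Z H a) ≤ H :=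
  (le_inf ((om_mono PP_le).trans h.om_le) fun _ hg => mem_centralizer_iff.2 fun u hu =>
    Units.ext ((mem_PP.1 (iso_mem one_mem_PP (om_le_iso _ hg))).2 u hu).symm).trans
      (h.hr.cent_le le_rfl h.le)

theorem mem_Z (hx : x ∈ S.cent Z 1) (hc : ∀ g ∈ S.om (S.cent Z 1), g.1 * x = x * g.1) : x ∈ Z := by
  rw [← h.ctrA]
  exact h.bigA.mem_ctr' hx fun y hy => (h.bigA.om_span h.hy hc y hy).symm

theorem inf_le (h1 : a ≤ y) (h2 : a ≤ y') (h3 : y ⊔ y' = b) (hx : x ∈ PP S Z H y)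
    (hx' : x ∈ PP S Z H y') : x ∈ Z := by
  refine h.mem_Z hx.1 fun g hg => ?_
  have hb : y ≤ b := h3 ▸ le_sup_left
  have hb' : y' ≤ b := h3 ▸ le_sup_right
  rw [← h.lc.top, ← h3, EE_sup (h.up h1 hb).nm (h.up h2 hb').nm
    (h3 ▸ (h.up h.le le_rfl).nm)] at hg
  have : EE H y ⊔ EE H y' ≤ (Submonoid.centralizer {x}).units := sup_le
    (fun u hu => ⟨by rintro _ rfl; exact (mem_PP.1 hx).2 u hu,
      by rintro _ rfl; exact (mem_PP.1 hx).2 _ (inv_mem hu)⟩)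
    (fun u hu => ⟨by rintro _ rfl; exact (mem_PP.1 hx').2 u hu,
      by rintro _ rfl; exact (mem_PP.1 hx').2 _ (inv_mem hu)⟩)
  exact ((this hg).1 x rfl).symm

theorem scal_of (hD : S.PSc D 1) (hle : D ≤ PP S Z H a) : S.Scal D 1 :=
  hD.scal (X := {k | ∃ u ∈ EE H a, k = u.1})
    (by rintro _ ⟨u, hu, rfl⟩; exact (mem_iso.1 (h.EE_iso hu)).2)
    (fun v _ hv => h.fix fun u hu => hv _ ⟨u, hu, rfl⟩)
    (by rintro _ ⟨u, hu, rfl⟩ z hz; exact ((mem_PP.1 (hle hz)).2 u hu).symm)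

theorem sp : S.SP (PP S Z H a) := h.irr.sp PP_le h.nmP

theorem tc (hs : S.Simp (PP S Z H a) 1) (hx : x ∈ PP S Z H a) (hn : x ∉ S.ctr (PP S Z H a) 1) :
    S.TC (PP S Z H a) 1 := by
  obtain ⟨g, hg, hu, h1⟩ := hs.exists_unitary hx hn
  have h2 := h.irr.fixV_eq_bot h.scal (X := S.iso (PP S Z H a))
    (fun k hk u hu => gam_conj_iso h.scal (h.gam hk) PP_le (h.nmP k hk) hu) (iso_mono PP_le)
    fun e => h1 (congrArg Units.val (mem_bot.1 (e.le (h.uni_iso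
      (g := ⟨g, S.st g, mul_eq_one_comm.1 hu, hu⟩) hg hu))))
  exact fun v _ hv => AddSubgroup.mem_bot.1 (h2.le hv)

/-- If the local group at a block lies in `a`, then `P(a)` is scalar on the block. -/
theorem ss (he : e ∈ PP S Z H a) (hs : S.st e = e) (hi : e * e = e) (h0 : e ≠ 0) {r : ℕ}
    (hr : S.Rank (S.cut Z e) e r) (hc : c ≤ r) (hle : S.om (S.cor (S.cent Z 1) e) ≤ a)
    (hx : x ∈ PP S Z H a) : ∃ z ∈ Z, x * e = z * e := by
  have hD := h.scal.cut_scal he.1 hs hi h0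
  have hB := h.hy.big hD hr hc
  have hZ := (h.hy.bas _ _ r hD hr).2.1
  rw [Scal.cent_cut he.1 hi] at hB hZ
  set J := S.cor (S.cent Z 1) e
  have heJ : e ∈ J := hB.simp.mem
  have hE : Nm (EE H a) (S.om J) := fun g hg k hk =>
    gam_conj_om h.scal (h.gam (EE_le h.nm hg)) (cor_le _ _) (fun w hw => by
      have h1 := ((mem_PP.1 he).2 g hg).symm
      obtain ⟨h2, h3, h4⟩ := mem_cor.1 hw
      refine mem_cor.2 ⟨h.nmA g (h.le (EE_le h.nm hg)) w h2, ?_, ?_⟩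
      · rw [← mul_assoc, ← mul_assoc, ← h1, mul_assoc g.1, h3]
      · rw [mul_assoc, inv_comm h1, ← mul_assoc, mul_assoc g.1, h4]) hk
  have hE' : Nm (S.om J) (EE H a) := (nm_EE H a).mono hle
  obtain ⟨m, hm, hcm⟩ := hB.deg
  obtain ⟨hp, hN⟩ := h.hy.n1 J e m hB.simp hB.tc hm hcm
  rcases hN (EE H a ⊓ S.om J) (inf_le_right.trans (om_le_iso J)) (hE'.inf (Nm.of_le le_rfl)) with
    e1 | e1
  · exfalso
    have h1 : ⁅EE H a ⊓ S.om J, S.om J⁆ = ⊥ := cm_iff_comm.1 fun g hg k hk =>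
      Units.ext (iso_comm (om_le_iso J hk) (e1 g hg))
    have h2 : ⁅S.om J, EE H a⁆ ≤ EE H a ⊓ S.om J := le_inf hE'.comm_le_right hE.comm_le_left
    have h3 : ⁅⁅S.om J, S.om J⁆, EE H a⁆ = ⊥ := commutator_commutator_eq_bot_of_rotate
      (le_bot_iff.1 ((commutator_mono h2 le_rfl).trans h1.le))
      (le_bot_iff.1 ((commutator_mono ((commutator_comm _ _).le.trans h2) le_rfl).trans h1.le))
    have h4 : ∀ g ∈ EE H a, ∀ w ∈ J, w * g.1 = g.1 * w := fun g hg => hB.om_span h.hy fun k hk =>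
      congrArg Units.val (cm_iff_comm.2 h3 k (hp hk) g hg)
    have h5 : ∀ g ∈ EE H a, g.1 * e ∈ J := fun g hg => mem_cor.2
      ⟨mul_mem (iso_mem (one_mem_cent Z) (h.EE_iso hg)) he.1,
        by rw [← mul_assoc, h4 g hg e heJ, mul_assoc, hi], by rw [mul_assoc, hi]⟩
    have h6 : ⁅EE H a, EE H a⁆ ≤ MulAction.stabilizer S.Eˣ e := commutator_le.2 fun g hg k hk => by
      change (g * k * g⁻¹ * k⁻¹).1 * e = e
      have h7 := h4 _ (inv_mem hg) _ (h5 _ (inv_mem hk))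
      rw [mul_assoc, h4 _ (inv_mem hg) e heJ] at h7
      simp only [Units.val_mul, mul_assoc]
      rw [← h7]
      simp [← mul_assoc]
    refine h0 (LinearMap.ext fun v => h.fix fun g hg => ?_)
    exact congrArg (fun f : S.E => f v) (h6 (EE_perfect h.nm hg))
  · have h1 : ∀ w ∈ J, w * x = x * w := hB.om_span h.hy fun g hg =>
      ((mem_PP.1 hx).2 g (e1 hg).1).symm
    have h2 : x * e ∈ J := mem_cor.2 ⟨mul_mem hx.1 he.1,
      by rw [← mul_assoc, h1 e heJ, mul_assoc, hi], by rw [mul_assoc, hi]⟩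
    have h3 := hB.mem_ctr' h2 fun w hw => by
      rw [mul_assoc, hB.simp.left w hw, ← mul_assoc, h1 w hw, mul_assoc, hB.simp.right w hw]
    rw [hZ] at h3
    exact (Scal.mem_cut' he.1 hi).1 h3

end Cx

end Vale.Agent.P183W3
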