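import Vale.Agent.P183W3.Base

/-!
Invariant orthogonal decompositions.
-/

set_option linter.unusedSectionVars false

namespace Vale.Agent.P183W3

open Subgroup Vale.Agent.P183A Vale.Agent.P183NK Vale.Agent.P183NK.FS Vale.Agent.P183W5
open scoped commutatorElement

variable {p : ℕ} [Fact p.Prime] {V : Type} [AddCommGroup V] [Module (ZMod p) V]
  {S : FS p V} {c n : ℕ} {J Z : S.NR} {e f x : S.E} {H a b X : Subgroup S.Eˣ}
  {B B₁ B₂ : Finset S.E}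

/-- `X` permutes `B`. -/
def Inv (X : Subgroup S.Eˣ) (B : Finset S.E) : Prop := ∀ g ∈ X, ∀ e ∈ B, g.1 * e * g⁻¹.1 ∈ B

/-- The stabiliser of `B`. -/
def nB (B : Finset S.E) : Subgroup S.Eˣ where
  carrier := {g | ∀ x, x ∈ B ↔ g.1 * x * g⁻¹.1 ∈ B}
  one_mem' := fun x => by simp
  mul_mem' := fun {a b} ha hb x => by
    rw [hb x, ha]
    simp [mul_assoc]
  inv_mem' := fun {a} ha x => by
    rw [ha (a⁻¹.1 * x * a⁻¹⁻¹.1)]
    simp [mul_assoc]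

theorem le_nB : X ≤ nB B ↔ Inv X B :=
  ⟨fun h g hg e he => (h hg e).1 he, fun h g hg x =>
    ⟨h g hg x, fun hx => by simpa [mul_assoc] using h g⁻¹ (inv_mem hg) _ hx⟩⟩

theorem Inv.mono {X' : Subgroup S.Eˣ} (h : Inv X B) (h' : X' ≤ X) : Inv X' B :=
  fun g hg => h g (h' hg)

/-- The pointwise centraliser of `B`. -/
def cB (B : Finset S.E) : Subgroup S.Eˣ where
  carrier := {g | ∀ e ∈ B, g.1 * e = e * g.1}
  one_mem' := fun x => by simp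
  mul_mem' := fun {a b} ha hb x hx => by
    rw [Units.val_mul, mul_assoc, hb x hx, ← mul_assoc, ha x hx, mul_assoc]
  inv_mem' := fun ha x hx => (Commute.units_inv_left (ha x hx)).eq

theorem cB_le : cB B ≤ nB B := le_nB.2 fun g hg e he => by
  rw [hg e he, mul_assoc, Units.mul_inv, mul_one]; exact he

theorem nm_cB : Nm (nB B) (cB B) := fun g hg k hk e he => by
  have h1 := hk _ (((nB B).inv_mem hg e).1 he)
  have := congrArg (fun y => g.1 * y * g⁻¹.1) h1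
  simpa [mul_assoc] using this

/-- Every ring that contains `B₁` contains `B₂`. -/
def Rf (B₁ B₂ : Finset S.E) : Prop := ∀ J : S.NR, (∀ e ∈ B₁, e ∈ J) → ∀ f ∈ B₂, f ∈ J

theorem Rf.cB_le [Finite V] (h : Rf B₁ B₂) : cB B₁ ≤ cB B₂ := fun g hg f hf =>
  ((h (cmt ⊤ {g.1}) (fun e he => ⟨trivial, by rintro _ rfl; exact (hg e he).symm⟩) f hf).2 _
    rfl).symm

theorem conj_ne {g : S.Eˣ} (h : e ≠ 0) : g.1 * e * g⁻¹.1 ≠ 0 := fun h' =>
  h (by simpa using h')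

theorem dec_eq (hB : Dec S Z B) (he : e ∈ B) (hf : f ∈ B) (h : e * f ≠ 0) : e = f := by
  by_contra c
  exact h (hB.orth e he f hf c)

theorem dec_sum (hB : Dec S Z B) (x : S.E) : x = ∑ e ∈ B, x * e := by
  rw [← Finset.mul_sum, hB.sum, mul_one]

theorem rf_of (hB : Dec S Z B) (h : ∀ f ∈ B₁, ∀ e ∈ B, f * e = 0 ∨ f * e = e) : Rf B B₁ :=
  fun J hJ f hf => by
    rw [dec_sum hB f]
    refine sum_mem fun e he => ?_
    rcases h f hf e he with e1 | e1 <;> rw [e1]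
    exacts [zero_mem _, hJ e he]

theorem card_le_one (hZ : S.Scal Z 1) (hB : Dec S Z B) (h : ∀ e ∈ B, e ∈ Z) : B.card ≤ 1 := by
  have : ∀ e ∈ B, e = 1 := fun e he =>
    (hZ.sym_idem (h e he) (hB.symm e he) (hB.idem e he)).resolve_left (hB.ne e he)
  exact Finset.card_le_one.2 fun e he f hf => (this e he).trans (this f hf).symm

open Classical in
/-- The common refinement. -/
noncomputable def pr (B₁ B₂ : Finset S.E) : Finset S.E :=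
  ((B₁ ×ˢ B₂).image fun x => x.1 * x.2).erase 0

theorem mem_pr : x ∈ pr B₁ B₂ ↔ x ≠ 0 ∧ ∃ e ∈ B₁, ∃ f ∈ B₂, e * f = x := by
  simp [pr]
  tauto

section
variable (h₁ : Dec S Z B₁) (h₂ : Dec S Z B₂) (hc : ∀ e ∈ B₁, ∀ f ∈ B₂, e * f = f * e)
include h₁ h₂ hc

theorem pr_mul {e' f' : S.E} (he : e ∈ B₁) (hf : f ∈ B₂) (he' : e' ∈ B₁) (hf' : f' ∈ B₂)
    (h : e * f * (e' * f') ≠ 0) : e = e' ∧ f = f' := by
  have h1 : e * f * (e' * f') = e * e' * (f * f') := by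
    rw [mul_assoc, ← mul_assoc f, ← hc e' he' f hf]
    simp only [mul_assoc]
  rw [h1] at h
  exact ⟨dec_eq h₁ he he' (left_ne_zero_of_mul h), dec_eq h₂ hf hf' (right_ne_zero_of_mul h)⟩

theorem pr_idem (he : e ∈ B₁) (hf : f ∈ B₂) : e * f * (e * f) = e * f := by
  rw [mul_assoc, ← mul_assoc f, ← hc e he f hf, mul_assoc, h₂.idem f hf, ← mul_assoc, h₁.idem e he]

theorem dec_pr : Dec S Z (pr B₁ B₂) where
  mem := fun x hx => by
    obtain ⟨-, e, he, f, hf, rfl⟩ := mem_pr.1 hx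
    exact mul_mem (h₁.mem e he) (h₂.mem f hf)
  ne := fun x hx => (mem_pr.1 hx).1
  symm := fun x hx => by
    obtain ⟨-, e, he, f, hf, rfl⟩ := mem_pr.1 hx
    rw [st_mul, h₁.symm e he, h₂.symm f hf, hc e he f hf]
  idem := fun x hx => by
    obtain ⟨-, e, he, f, hf, rfl⟩ := mem_pr.1 hx
    exact pr_idem h₁ h₂ hc he hf
  orth := fun x hx y hy hxy => by
    obtain ⟨-, e, he, f, hf, rfl⟩ := mem_pr.1 hx
    obtain ⟨-, e', he', f', hf', rfl⟩ := mem_pr.1 hy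
    by_contra c
    obtain ⟨rfl, rfl⟩ := pr_mul h₁ h₂ hc he hf he' hf' c
    exact hxy rfl
  sum := by
    classical
    rw [pr, Finset.sum_erase (f := fun x : S.E => x) _ rfl, Finset.sum_image_of_pairwise_eq_zero, Finset.sum_product,
      ← Finset.sum_mul_sum, h₁.sum, h₂.sum, mul_one]
    rintro ⟨e, f⟩ h1 ⟨e', f'⟩ h2 hne e1
    obtain ⟨he, hf⟩ := Finset.mem_product.1 h1
    obtain ⟨he', hf'⟩ := Finset.mem_product.1 h2
    by_contra c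
    have e2 : e * f = e' * f' := e1
    obtain ⟨rfl, rfl⟩ := pr_mul h₁ h₂ hc he hf he' hf' (by rwa [← e2, pr_idem h₁ h₂ hc he hf])
    exact hne rfl

theorem pr_left (hf : f ∈ B₁) (hx : x ∈ pr B₁ B₂) : f * x = 0 ∨ f * x = x := by
  obtain ⟨-, e, he, f', hf', rfl⟩ := mem_pr.1 hx
  by_cases e1 : f = e
  · exact Or.inr (by rw [e1, ← mul_assoc, h₁.idem e he])
  · exact Or.inl (by rw [← mul_assoc, h₁.orth f hf e he e1, zero_mul])

theorem pr_right (hf : f ∈ B₂) (hx : x ∈ pr B₁ B₂) : f * x = 0 ∨ f * x = x := by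
  obtain ⟨-, e, he, f', hf', rfl⟩ := mem_pr.1 hx
  rw [hc e he f' hf']
  by_cases e1 : f = f'
  · exact Or.inr (by rw [e1, ← mul_assoc, h₂.idem f' hf'])
  · exact Or.inl (by rw [← mul_assoc, h₂.orth f hf f' hf' e1, zero_mul])

end

theorem inv_pr (h₁ : Inv X B₁) (h₂ : Inv X B₂) : Inv X (pr B₁ B₂) := fun g hg x hx => by
  obtain ⟨h0, e, he, f, hf, rfl⟩ := mem_pr.1 hx
  exact mem_pr.2 ⟨conj_ne h0, _, h₁ g hg e he, _, h₂ g hg f hf, (FS.conj_mul g e f).symm⟩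

variable [Finite V]

theorem card_conj (g : S.Eˣ) (e : S.E) :
    Nat.card (LinearMap.range e) ≤ Nat.card (LinearMap.range (g.1 * e * g⁻¹.1)) :=
  Nat.card_le_card_of_injective (fun v => ⟨g.1 v.1, by
    obtain ⟨_, w, rfl⟩ := v
    exact ⟨g.1 w, by simp⟩⟩) fun _ _ h => Subtype.ext (u_inj g (congrArg Subtype.val h))

theorem card_V_le (hB : Dec S Z B) {N : ℕ} (h : ∀ e ∈ B, Nat.card (LinearMap.range e) = N) :
    Nat.card (LinearMap.range (1 : S.E)) ≤ N ^ B.card := by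
  have h1 : Nat.card (LinearMap.range (1 : S.E)) ≤ Nat.card (∀ e : B, LinearMap.range e.1) :=
    Nat.card_le_card_of_injective (fun v e => ⟨e.1 v.1, v.1, rfl⟩) fun v w hvw => by
      have h2 : ∀ u : V, u = ∑ e ∈ B, e u := fun u => by
        rw [← LinearMap.sum_apply, hB.sum]; rfl
      refine Subtype.ext ((h2 _).trans ((Finset.sum_congr rfl fun e he => ?_).trans (h2 _).symm))
      exact congrArg Subtype.val (congrFun hvw ⟨e, he⟩)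
  rw [Nat.card_pi, Finset.prod_congr rfl fun e _ => h e.1 e.2] at h1
  simpa using h1

/-- Two blocks are swapped by an isometry. -/
def Sw (S : FS p V) (Z : S.NR) (B : Finset S.E) (e f : S.E) : Prop :=
  ∃ t ∈ S.iso (S.cent Z 1), t.1 * e * t⁻¹.1 = f ∧ t.1 * f * t⁻¹.1 = e ∧
    ∀ x ∈ B, x ≠ e → x ≠ f → t.1 * x * t⁻¹.1 = x

theorem Sw.symm (h : Sw S Z B e f) : Sw S Z B f e :=
  let ⟨t, h1, h2, h3, h4⟩ := h
  ⟨t, h1, h3, h2, fun x hx k1 k2 => h4 x hx k2 k1⟩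

theorem sw_of (hB : Dec S Z B) (he : e ∈ B) (hf : f ∈ B) {t : S.Eˣ}
    (ht : t ∈ S.iso (S.cent Z 1)) (h1 : t * t = 1) (h2 : t.1 * e = f * t.1)
    (h3 : t.1 * (1 - e - f) = 1 - e - f) : Sw S Z B e f := by
  have h4 : t⁻¹ = t := inv_eq_of_mul_eq_one_right h1
  have h5 : t.1 * t.1 = 1 := congrArg Units.val h1
  have h6 : t.1 * e * t⁻¹.1 = f := by rw [h2, mul_assoc, Units.mul_inv, mul_one]
  refine ⟨t, ht, h6, ?_, fun x hx k1 k2 => ?_⟩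
  · rw [← h6, h4, ← mul_assoc, ← mul_assoc, h5, one_mul, mul_assoc, h5, mul_one]
  · have h7 : (1 - e - f) * x = x := by
      rw [sub_mul, sub_mul, hB.orth e he x hx k1.symm, hB.orth f hf x hx k2.symm]; simp
    have h8 : t.1 * x = x := by rw [← h7, ← mul_assoc, h3]
    have h9 := congrArg S.st h8
    rw [st_mul, hB.symm x hx, iso_st ht] at h9
    rw [h8, h9]

theorem Hy.sw (hy : Hy c S) (hZ : S.Scal Z 1) (hB : Dec S Z B) {N : ℕ}
    (hN : ∀ e ∈ B, Nat.card (LinearMap.range e) = N) {e₁ e₂ e₃ : S.E} (h1 : e₁ ∈ B) (h2 : e₂ ∈ B)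
    (h3 : e₃ ∈ B) (k1 : e₁ ≠ e₂) (k2 : e₁ ≠ e₃) (k3 : e₂ ≠ e₃) :
    Sw S Z B e₁ e₂ ∨ Sw S Z B e₁ e₃ ∨ Sw S Z B e₂ e₃ := by
  have hm : ∀ i, ![e₁, e₂, e₃] i ∈ B := fun i => by fin_cases i <;> assumption
  have hi : ∀ i j, i ≠ j → ![e₁, e₂, e₃] i ≠ ![e₁, e₂, e₃] j := fun i j => by
    fin_cases i <;> fin_cases j <;> simp [k1, k2, k3, k1.symm, k2.symm, k3.symm]
  obtain ⟨i, j, hij, t, ht, l1, l2, l3⟩ := hy.iso3 Z hZ ![e₁, e₂, e₃]
    (fun i => ⟨hB.mem _ (hm i), hB.symm _ (hm i), hB.idem _ (hm i)⟩)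
    (fun i j hij => hB.orth _ (hm i) _ (hm j) (hi i j hij))
    fun i j => (hN _ (hm i)).trans (hN _ (hm j)).symm
  have := sw_of hB (hm i) (hm j) ht l1 l2 l3
  have h' := this.symm
  fin_cases i <;> fin_cases j <;> simp at hij this h' <;> tauto

theorem exists_nmem (h5 : 5 ≤ B.card) (l : List S.E) (hl : l.length ≤ 4) : ∃ x ∈ B, x ∉ l := by
  classical
  obtain ⟨x, h1, h2⟩ := Finset.exists_mem_notMem_of_card_lt_card (s := l.toFinset) (t := B)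
    (by have := l.toFinset_card_le; omega)
  exact ⟨x, h1, by simpa using h2⟩

/-- A three cycle of blocks in `Ω`. -/
theorem Hy.cycle (hy : Hy c S) (hZ : S.Scal Z 1) (hB : Dec S Z B) {N : ℕ}
    (hN : ∀ e ∈ B, Nat.card (LinearMap.range e) = N) (h5 : 5 ≤ B.card) :
    ∃ e₁ ∈ B, ∃ e₂ ∈ B, ∃ e₃ ∈ B, e₁ ≠ e₂ ∧ ∃ g ∈ S.om (S.cent Z 1), g ∈ nB B ∧
      g.1 * e₁ * g⁻¹.1 = e₂ ∧ g.1 * e₃ * g⁻¹.1 = e₁ ∧
      ∀ x ∈ B, x ≠ e₁ → x ≠ e₂ → x ≠ e₃ → g.1 * x * g⁻¹.1 = x := by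
  have key : ∃ e₁ ∈ B, ∃ e₂ ∈ B, ∃ e₃ ∈ B, e₁ ≠ e₂ ∧ e₁ ≠ e₃ ∧ e₂ ≠ e₃ ∧ Sw S Z B e₁ e₂ ∧
      Sw S Z B e₁ e₃ := by
    have k0 : ∃ x ∈ B, ∃ y ∈ B, x ≠ y ∧ Sw S Z B x y := by
      obtain ⟨x, hx, -⟩ := exists_nmem h5 [] (by simp)
      obtain ⟨y, hy', n1⟩ := exists_nmem h5 [x] (by simp)
      obtain ⟨z, hz, n2⟩ := exists_nmem h5 [x, y] (by simp)
      simp only [List.mem_cons, List.not_mem_nil, or_false, not_or] at n1 n2
      rcases hy.sw hZ hB hN hz hy' hx n2.2 n2.1 n1 with s | s | s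
      exacts [⟨_, hz, _, hy', n2.2, s⟩, ⟨_, hz, _, hx, n2.1, s⟩, ⟨_, hy', _, hx, n1, s⟩]
    obtain ⟨x, hx, y, hy', n0, s0⟩ := k0
    obtain ⟨u, hu, n1⟩ := exists_nmem h5 [x, y] (by simp)
    obtain ⟨v, hv, n2⟩ := exists_nmem h5 [x, y, u] (by simp)
    obtain ⟨w, hw, n3⟩ := exists_nmem h5 [x, y, u, v] (by simp)
    simp only [List.mem_cons, List.not_mem_nil, or_false, not_or] at n1 n2 n3
    have k1 : ∀ z ∈ B, z ≠ x → z ≠ y → Sw S Z B z x → _ := fun z hz l1 l2 s =>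
      (⟨x, hx, y, hy', z, hz, n0, l1.symm, l2.symm, s0, s.symm⟩ : ∃ e₁ ∈ B, ∃ e₂ ∈ B, ∃ e₃ ∈ B,
        e₁ ≠ e₂ ∧ e₁ ≠ e₃ ∧ e₂ ≠ e₃ ∧ Sw S Z B e₁ e₂ ∧ Sw S Z B e₁ e₃)
    rcases hy.sw hZ hB hN hv hu hx n2.2.2 n2.1 n1.1 with s | s | s
    · rcases hy.sw hZ hB hN hw hu hx n3.2.2.1 n3.1 n1.1 with s' | s' | s'
      · exact ⟨u, hu, w, hw, v, hv, Ne.symm n3.2.2.1, Ne.symm n2.2.2, n3.2.2.2, s'.symm, s.symm⟩
      · exact k1 w hw n3.1 n3.2.1 s'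
      · exact k1 u hu n1.1 n1.2 s'
    · exact k1 v hv n2.1 n2.2.1 s
    · exact k1 u hu n1.1 n1.2 s
  obtain ⟨e₁, h1, e₂, h2, e₃, h3, k1, k2, k3, ⟨t, ht, t1, t2, t3⟩, ⟨s, hs, s1, s2, s3⟩⟩ := key
  have hn : ∀ {t : S.Eˣ} {e f : S.E}, e ∈ B → f ∈ B → t.1 * e * t⁻¹.1 = f → t.1 * f * t⁻¹.1 = e →
      (∀ x ∈ B, x ≠ e → x ≠ f → t.1 * x * t⁻¹.1 = x) →
      t ∈ nB B ∧ ∀ x ∈ B, t⁻¹.1 * x * t.1 = t.1 * x * t⁻¹.1 := by
    intro t e f he hf l1 l2 l3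
    have l4 : ∀ x y : S.E, t.1 * x * t⁻¹.1 = y → t⁻¹.1 * y * t.1 = x := by
      rintro x _ rfl
      simp [mul_assoc]
    have l5 : ∀ x ∈ B, t.1 * x * t⁻¹.1 ∈ B ∧ t⁻¹.1 * x * t.1 = t.1 * x * t⁻¹.1 := fun x hx => by
      by_cases c1 : x = e
      · rw [c1, l1]; exact ⟨hf, l4 _ _ l2⟩
      by_cases c2 : x = f
      · rw [c2, l2]; exact ⟨he, l4 _ _ l1⟩
      · rw [l3 x hx c1 c2]; exact ⟨hx, l4 _ _ (l3 x hx c1 c2)⟩
    refine ⟨fun x => ⟨fun hx => (l5 x hx).1, fun hx => ?_⟩, fun x hx => (l5 x hx).2⟩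
    rw [← l4 x _ rfl, (l5 _ hx).2]
    exact (l5 _ hx).1
  obtain ⟨nt, it⟩ := hn h1 h2 t1 t2 t3
  obtain ⟨ns, is⟩ := hn h1 h3 s1 s2 s3
  have hg : ∀ x ∈ B, (⁅t, s⁆).1 * x * (⁅t, s⁆)⁻¹.1 = t.1 * (s.1 * (t.1 * (s.1 * x * s⁻¹.1) * t⁻¹.1)
      * s⁻¹.1) * t⁻¹.1 := fun x hx => by
    rw [← it _ ((ns x).1 hx), ← is x hx]
    simp [commutatorElement_def, mul_assoc]
  refine ⟨e₁, h1, e₂, h2, e₃, h3, k1, ⁅t, s⁆, commutator_mem_commutator ht hs,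
    mul_mem (mul_mem (mul_mem nt ns) (inv_mem nt)) (inv_mem ns), ?_, ?_, fun x hx l1 l2 l3 => ?_⟩
  · rw [hg _ h1, s1, t3 _ h3 k2.symm k3.symm, s2, t1]
  · rw [hg _ h3, s2, t1, s3 _ h2 k1.symm k3, t2]
  · rw [hg _ hx, s3 _ hx l1 l3, t3 _ hx l1 l2, s3 _ hx l1 l3, t3 _ hx l1 l2]

namespace Cx

variable (h : Cx c S Z n H b a)
include h

theorem nB_lt (hB : Dec S Z B) (h2 : 2 ≤ B.card) : b ⊓ nB B < b := by
  refine lt_of_le_of_ne inf_le_left fun e => ?_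
  have h1 : S.om (S.cent Z 1) ≤ nB B := h.om_le.trans (e.ge.trans inf_le_right)
  have h3 : ∀ e ∈ B, e ∈ cmt (S.cent Z 1) (B : Set S.E) := fun e he => ⟨hB.mem e he, fun f hf => by
    by_cases c : e = f
    · rw [c]
    · rw [hB.orth e he f hf c, hB.orth f hf e he (Ne.symm c)]⟩
  suffices ∀ e ∈ B, e ∈ Z by have := card_le_one h.scal hB this; omega
  rcases h.bigA.n2 h.hy (R := cmt (S.cent Z 1) (B : Set S.E)) cmt_le
    (fun w hw => ⟨h.scal.toLoc.cent.star w hw.1, fun f hf => by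
      have := st_cm (hw.2 f hf)
      rwa [hB.symm f hf] at this⟩)
    (fun g hg w hw => ⟨h.bigA.nmR g hg w hw.1, fun f hf => by
      have := congrArg (fun y => g.1 * y * g⁻¹.1) (hw.2 _ ((h1 (inv_mem hg) f).1 hf))
      simpa [mul_assoc] using this⟩) with e1 | e1
  · exact fun e he => h.ctrA ▸ e1 (h3 e he)
  · exact fun e he => h.ctrA ▸ h.bigA.mem_ctr' (hB.mem e he) fun w hw => ((e1.ge hw).2 e he).symm

theorem trans (hB : Dec S Z B) (hi : Inv a B) (he : e ∈ B) (hf : f ∈ B) :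
    ∃ g ∈ a, g.1 * e * g⁻¹.1 = f := by
  classical
  let O := B.filter fun f => ∃ g ∈ a, g.1 * e * g⁻¹.1 = f
  let s := ∑ f ∈ O, f
  have hO : ∀ f ∈ O, f ∈ B := fun f hf => (Finset.mem_filter.1 hf).1
  have h1 : ∀ f ∈ B, f ∈ O → s * f = f := fun f hf hf' => by
    rw [Finset.sum_mul, Finset.sum_eq_single_of_mem f hf' fun x hx c => hB.orth x (hO x hx) f hf c,
      hB.idem f hf]
  have h2 : s * s = s := by
    rw [Finset.mul_sum]
    exact Finset.sum_congr rfl fun f hf => h1 f (hO f hf) hf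
  have h3 : S.st s = s := by rw [st_sum]; exact Finset.sum_congr rfl fun f hf => hB.symm f (hO f hf)
  have h4 : s ∈ S.cent Z 1 := sum_mem fun f hf => hB.mem f (hO f hf)
  have h5 : ∀ g ∈ a, ∀ f ∈ O, g.1 * f * g⁻¹.1 ∈ O := fun g hg f hf => by
    obtain ⟨k1, k, hk, rfl⟩ := Finset.mem_filter.1 hf
    exact Finset.mem_filter.2 ⟨hi g hg _ k1, g * k, mul_mem hg hk, by simp [mul_assoc]⟩
  have h6 : ∀ g ∈ a, g.1 * s = s * g.1 := fun g hg => comm_of_conj (by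
    rw [Finset.mul_sum, Finset.sum_mul]
    exact Finset.sum_nbij' (fun f => g.1 * f * g⁻¹.1) (fun f => g⁻¹.1 * f * g⁻¹⁻¹.1) (h5 g hg)
      (h5 _ (inv_mem hg)) (fun f _ => by simp [mul_assoc]) (fun f _ => by simp [mul_assoc])
      fun _ _ => rfl)
  obtain ⟨z, hz, zi, hU⟩ := h.irr (S.im s)
    (by rintro z hz _ ⟨v, rfl⟩; exact ⟨z v, congrArg (fun f : S.E => f v) (h4.2.2 z hz)⟩)
    (by rintro g hg _ ⟨v, rfl⟩; exact ⟨g.1 v, congrArg (fun f : S.E => f v) (h6 g hg).symm⟩)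
  have h7 : s = z := by
    have l1 : z * s = s := LinearMap.ext fun v => (hU _).1 ⟨v, rfl⟩
    have l2 : s * z = z := LinearMap.ext fun v =>
      (mem_range_idem h2).1 ((hU _).2 (idem_app zi v))
    rw [← l1, ← h4.2.2 z hz, l2]
  have heO : e ∈ O := Finset.mem_filter.2 ⟨he, 1, one_mem _, by simp⟩
  rcases h.scal.sym_idem (h7 ▸ hz) h3 h2 with e1 | e1
  · exact absurd (by rw [← h1 e he heO, e1, zero_mul]) (hB.ne e he)
  · by_contra c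
    refine hB.ne f hf ?_
    rw [← one_mul f, ← e1, Finset.sum_mul]
    refine Finset.sum_eq_zero fun x hx => hB.orth x (hO x hx) f hf ?_
    rintro rfl
    exact c (Finset.mem_filter.1 hx).2

theorem card_eq (hB : Dec S Z B) (hi : Inv a B) (he : e ∈ B) (hf : f ∈ B) :
    Nat.card (LinearMap.range f) = Nat.card (LinearMap.range e) := by
  obtain ⟨g, -, h1⟩ := h.trans hB hi he hf
  obtain ⟨k, -, h2⟩ := h.trans hB hi hf he
  exact le_antisymm (h2 ▸ card_conj k f) (h1 ▸ card_conj g e)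

/-- At most four blocks: the commutant is small. -/
theorem small (hB : Dec S Z B) (hi : Inv a B) (hP : ∀ e ∈ B, e ∈ PP S Z H a)
    (hK : S.om (S.cent Z 1) ⊓ cB B ≤ a) (h4 : B.card ≤ 4) :
    Nat.card (PP S Z H a) ≤ Nat.card Z ^ 4 := by
  have h2 := h.scal.two_le_card
  have key : ∀ x ∈ PP S Z H a, ∀ e ∈ B, ∃ z ∈ Z, x * e = z * e := fun x hx e he => by
    have hD := h.scal.cut_scal (hB.mem e he) (hB.symm e he) (hB.idem e he) (hB.ne e he)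
    obtain ⟨r, -, hr⟩ := hD.psc.exists_rank
    refine h.ss (hP e he) (hB.symm e he) (hB.idem e he) (hB.ne e he) hr ?_
      (le_trans (le_inf (om_mono (cor_le _ _)) (show _ ≤ cB B from fun g hg f hf => ?_)) hK) hx
    · have h5 := card_V_le hB fun f hf => h.card_eq hB hi he hf
      rw [h.lc.rank, hr, h.scal.card_cut (hB.mem e he) (hB.symm e he) (hB.idem e he) (hB.ne e he),
        ← pow_mul] at h5
      have h6 := (Nat.pow_le_pow_iff_right h2).1 h5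
      have h7 := h.four
      nlinarith
    · refine (iso_comm (om_le_iso _ hg) fun w hw => ?_).symm
      obtain ⟨-, l1, l2⟩ := mem_cor.1 hw
      by_cases c : f = e
      · rw [c, l1, l2]
      · rw [← l1, ← mul_assoc, hB.orth f hf e he c, zero_mul, l1, ← l2, mul_assoc,
          hB.orth e he f hf (Ne.symm c), mul_zero]
  choose! z hz using key
  calc Nat.card (PP S Z H a) ≤ Nat.card (B → Z) := Nat.card_le_card_of_injective
        (fun x e => ⟨z x.1 e.1, (hz x.1 x.2 e.1 e.2).1⟩) fun x y hxy => by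
          refine Subtype.ext ((dec_sum hB _).trans ((Finset.sum_congr rfl fun e he => ?_).trans
            (dec_sum hB _).symm))
          rw [(hz x.1 x.2 e he).2, (hz y.1 y.2 e he).2]
          exact congrArg (· * e) (congrArg Subtype.val (congrFun hxy ⟨e, he⟩))
    _ = Nat.card Z ^ B.card := by simp [Nat.card_fun]
    _ ≤ _ := Nat.pow_le_pow_right (by omega) h4

/-- Two commuting invariant decompositions. -/
theorem pair (h₁ : Dec S Z B₁) (h₂ : Dec S Z B₂) (hc : ∀ e ∈ B₁, ∀ f ∈ B₂, e * f = f * e)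
    (i₁ : Inv a B₁) (i₂ : Inv a B₂) (p₁ : ∀ e ∈ B₁, e ∈ PP S Z H a) (p₂ : ∀ e ∈ B₂, e ∈ PP S Z H a)
    (hK : b ⊓ nB B₁ ⊓ (b ⊓ nB B₂) ≤ a) :
    Nat.card (PP S Z H a) ≤ Nat.card Z ^ 4 ∨ Rf B₁ B₂ ∨ Rf B₂ B₁ := by
  have hB := dec_pr h₁ h₂ hc
  have hi := inv_pr i₁ i₂
  have r₁ : Rf (pr B₁ B₂) B₁ := rf_of hB fun f hf e he => pr_left h₁ h₂ hc hf he
  have r₂ : Rf (pr B₁ B₂) B₂ := rf_of hB fun f hf e he => pr_right h₁ h₂ hc hf he
  have hP : ∀ e ∈ pr B₁ B₂, e ∈ PP S Z H a := fun x hx => by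
    obtain ⟨-, e, he, f, hf, rfl⟩ := mem_pr.1 hx
    exact mul_mem (p₁ e he) (p₂ f hf)
  have hK' : S.om (S.cent Z 1) ⊓ cB (pr B₁ B₂) ≤ a := le_trans (le_inf
    (inf_le_inf h.om_le (r₁.cB_le.trans cB_le)) (inf_le_inf h.om_le (r₂.cB_le.trans cB_le))) hK
  by_cases h4 : (pr B₁ B₂).card ≤ 4
  · exact Or.inl (h.small hB hi hP hK' h4)
  right
  have hn : b ⊓ nB (pr B₁ B₂) ≤ a := le_of_normal
    (h.up (le_inf h.le (le_nB.2 hi)) inf_le_left).nm h.Hle (inf_le_inf h.om_le cB_le)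
    (((nm_gam_om h.scal).mono (inf_le_left.trans h.lc.gam)).inf (nm_cB.mono inf_le_right))
    (fun c => EE_nle h.nm (le_trans (le_inf h.EE_om (show _ ≤ cB _ from fun g hg e he =>
      ((mem_PP.1 (hP e he)).2 g hg).symm)) c)) hK'
  obtain ⟨e, he⟩ := Finset.card_pos.1 (show 0 < (pr B₁ B₂).card by omega)
  obtain ⟨e₁, h1, e₂, h2, e₃, h3, k1, g, hg, gn, g1, g3, g0⟩ :=
    h.hy.cycle h.scal hB (fun f hf => h.card_eq hB hi he hf) (by omega)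
  have ga : g ∈ a := hn ⟨h.om_le hg, gn⟩
  have row : ∀ B' : Finset S.E, Dec S Z B' → Inv a B' → (∀ f ∈ B', ∀ x ∈ pr B₁ B₂, f * x = 0 ∨
      f * x = x) → ∀ f ∈ B', f * e₁ = e₁ → (∀ x ∈ pr B₁ B₂, x ∈ B') ∨ f * e₂ = e₂ := by
    intro B' hB' i' hd f hf l1
    by_cases c : ∀ x ∈ pr B₁ B₂, x ≠ e₁ → f * x = 0
    · left
      have l2 : f = e₁ := by
        rw [dec_sum hB f, Finset.sum_eq_single_of_mem e₁ h1 c, l1]
      intro x hx
      obtain ⟨k, hk, rfl⟩ := h.trans hB hi h1 hx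
      exact i' k hk _ (l2 ▸ hf)
    right
    push Not at c
    obtain ⟨x, hx, n1, n2⟩ := c
    replace n2 := (hd f hf x hx).resolve_left n2
    have l3 : ∀ y ∈ pr B₁ B₂, f * y = y → f * (g.1 * y * g⁻¹.1) = g.1 * y * g⁻¹.1 →
        f * e₂ = e₂ := fun y hy l4 l5 => by
      have l6 : f = g.1 * f * g⁻¹.1 := dec_eq hB' hf (i' g ga f hf) fun l7 => by
        refine conj_ne (g := g) (hB.ne y hy) ?_
        rw [← l5, ← l4, FS.conj_mul, ← mul_assoc, l7, zero_mul]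
      rw [← g1, l6, ← FS.conj_mul, l1]
    by_cases c2 : x = e₂
    · exact c2 ▸ n2
    by_cases c3 : x = e₃
    · exact l3 x hx n2 (by rw [c3, g3, l1])
    · exact l3 x hx n2 (by rw [g0 x hx n1 c2 c3, n2])
  obtain ⟨-, f₁, hf₁, f₂, hf₂, rfl⟩ := mem_pr.1 h1
  rcases row B₁ h₁ i₁ (fun f hf x hx => pr_left h₁ h₂ hc hf hx) f₁ hf₁
    (by rw [← mul_assoc, h₁.idem _ hf₁]) with c1 | c1
  · exact Or.inl fun J hJ => r₂ J fun x hx => hJ x (c1 x hx)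
  rcases row B₂ h₂ i₂ (fun f hf x hx => pr_right h₁ h₂ hc hf hx) f₂ hf₂
    (by rw [hc _ hf₁ _ hf₂, ← mul_assoc, h₂.idem _ hf₂]) with c2 | c2
  · exact Or.inr fun J hJ => r₁ J fun x hx => hJ x (c2 x hx)
  · refine absurd ?_ (hB.ne _ h2)
    rw [← hB.orth _ h1 _ h2 k1, mul_assoc, c2, c1]

end Cx

end Vale.Agent.P183W3
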