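import Vale.Agent.P183W3.Base
import Vale.Agent.P183CX.Gam
import Mathlib.FieldTheory.Finite.Basic

/-!
Subfields of a field of scalars.
-/

set_option linter.unusedSectionVars false

namespace Vale.Agent.P183W3

open Vale.Agent.P183NK Vale.Agent.P183NK.FS

theorem card_fix {F : Type} [Field F] [Finite F] {p k : ℕ} (hp : 0 < p) (hk : Nat.card F = p ^ k)
    (l : ℕ) : Nat.card {x : F | x ^ p ^ l = x} = p ^ Nat.gcd k l := by
  have h1 : {x : F | x ^ p ^ l = x} =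
      insert 0 (Units.val '' ((powMonoidHom (p ^ l - 1) : Fˣ →* Fˣ).ker : Set Fˣ)) := by
    have h2 : p ^ l = p ^ l - 1 + 1 := (Nat.sub_add_cancel (Nat.pow_pos hp)).symm
    ext x
    constructor
    · intro hx
      by_cases h0 : x = 0
      · exact Or.inl h0
      · refine Or.inr ⟨Units.mk0 x h0, Units.ext ?_, rfl⟩
        change x ^ p ^ l = x at hx
        rw [h2, pow_succ] at hx
        simpa using (mul_eq_right₀ h0).1 hx
    · rintro (rfl | ⟨u, hu, rfl⟩)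
      · exact zero_pow (Nat.pow_pos hp).ne'
      · have h3 : (u : F) ^ (p ^ l - 1) = 1 := by simpa using congrArg Units.val hu
        change (u : F) ^ p ^ l = u
        rw [h2, pow_succ, h3, one_mul]
  rw [h1, Nat.card_coe_set_eq, Set.ncard_insert_of_notMem (by rintro ⟨u, -, e⟩; exact u.ne_zero e),
    Set.ncard_image_of_injective _ Units.val_injective, ← Nat.card_coe_set_eq]
  have := IsCyclic.card_powMonoidHom_ker Fˣ (p ^ l - 1)
  rw [Nat.card_units, hk, Nat.pow_sub_one_gcd_pow_sub_one] at this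
  exact (congrArg (· + 1) this).trans (Nat.sub_add_cancel (Nat.pow_pos hp))

variable {p : ℕ} [hp : Fact p.Prime] {V : Type} [AddCommGroup V] [Module (ZMod p) V] {S : FS p V}
  [Finite V] {F K K' D : S.NR} {x : S.E} {k l : ℕ}

theorem pow_mem' (h1 : (1 : S.E) ∈ K) (hx : x ∈ K) (n : ℕ) : x ^ n ∈ K :=
  (K.toSubring h1).pow_mem hx n

theorem inv_mem_of (h1 : (1 : S.E) ∈ K) (hx : x ∈ K) {y : S.E} (h : x * y = 1) : y ∈ K := by
  let u : S.Eˣ := ⟨x, y, h, mul_eq_one_comm.1 h⟩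
  have h2 : u⁻¹ = u ^ (orderOf u - 1) := by
    rw [inv_eq_iff_mul_eq_one, ← pow_succ', Nat.sub_add_cancel (orderOf_pos u), pow_orderOf_eq_one]
  have h3 : y = x ^ (orderOf u - 1) := (congrArg Units.val h2).trans (Units.val_pow_eq_pow_val _ _)
  rw [h3]
  exact pow_mem' h1 hx _

theorem scal_sub (h : S.Scal D 1) (hK : K ≤ D) (h1 : (1 : S.E) ∈ K) (hs : ∀ x ∈ K, S.st x ∈ K) :
    S.Scal K 1 where
  mem := h1
  ne := h.ne
  symm := h.symm
  left := fun _ _ => one_mul _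
  right := fun _ _ => mul_one _
  star := hs
  comm := fun x hx y hy => h.comm x (hK hx) y (hK hy)
  red := fun x hx => h.red x (hK hx)
  inv := fun x hx e h0 =>
    let ⟨y, _, hy⟩ := h.inv x (hK hx) e h0
    ⟨y, inv_mem_of h1 hx hy, hy⟩
  compat := fun x hx y hy => h.compat x (hK hx) y (hK hy)

/-- A field of symmetric scalars. -/
structure SF (F : S.NR) : Prop where
  scal : S.Scal F 1
  symm : ∀ x ∈ F, S.st x = x

theorem sf_sym (h : S.Scal D 1) : SF (S.sym D) := ⟨h.sym_scal, fun _ hx => hx.2.1⟩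

namespace SF

variable (h : SF F)
include h

theorem fld : S.IsFld F 1 := fun x hx => h.scal.inv x hx (h.symm x hx)

theorem sub (hK : K ≤ F) (h1 : (1 : S.E) ∈ K) : SF K :=
  ⟨scal_sub h.scal hK h1 fun x hx => by rwa [h.symm x (hK hx)], fun x hx => h.symm x (hK hx)⟩

/-- The fixed field of a power of the Frobenius map. -/
noncomputable def Fx (l : ℕ) : S.NR :=
  (((iterateFrobenius (Fld h.scal h.fld) p l).eqLocus (RingHom.id _)).map
    (Fld.val h.scal h.fld)).toNonUnitalSubring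

theorem mem_Fx : x ∈ h.Fx l ↔ x ∈ F ∧ x ^ p ^ l = x := by
  constructor
  · rintro ⟨y, hy, rfl⟩
    refine ⟨Fld.val_mem _ _ y, ?_⟩
    rw [← map_pow]
    exact congrArg _ hy
  · rintro ⟨h1, h2⟩
    exact ⟨⟨x, h1⟩, Fld.val_inj _ _ ((map_pow _ _ _).trans h2), rfl⟩

theorem card_Fx (hk : Nat.card F = p ^ k) (l : ℕ) : Nat.card (h.Fx l) = p ^ Nat.gcd k l := by
  rw [← card_fix (F := Fld h.scal h.fld) hp.out.pos hk l]
  exact (Nat.card_congr (Subring.equivMapOfInjective _ _ (Fld.val_inj h.scal h.fld)).toEquiv).symm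

theorem Fx_le : h.Fx l ≤ F := fun _ hx => (h.mem_Fx.1 hx).1

theorem Fx_mono (hl : k ∣ l) : h.Fx k ≤ h.Fx l := fun x hx => by
  obtain ⟨t, rfl⟩ := hl
  obtain ⟨h1, h2⟩ := h.mem_Fx.1 hx
  refine h.mem_Fx.2 ⟨h1, ?_⟩
  induction t with
  | zero => simp
  | succ t ih => rw [mul_add, mul_one, pow_add, pow_mul x, ih, h2]

theorem exists_card : ∃ k, 0 < k ∧ Nat.card F = p ^ k := by
  have := Fintype.ofFinite (Fld h.scal h.fld)
  obtain ⟨k, -, hk⟩ := FiniteField.card (Fld h.scal h.fld) p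
  exact ⟨k, k.2, (Nat.card_eq_fintype_card (α := Fld h.scal h.fld)).trans hk⟩

theorem pow_card (hk : Nat.card F = p ^ k) (hx : x ∈ F) : x ^ p ^ k = x := by
  have := Fintype.ofFinite (Fld h.scal h.fld)
  have h1 := FiniteField.pow_card (K := Fld h.scal h.fld) ⟨x, hx⟩
  rw [← Nat.card_eq_fintype_card, Fld.card, hk] at h1
  exact (map_pow (Fld.val h.scal h.fld) _ _).symm.trans (congrArg (Fld.val h.scal h.fld) h1)

theorem dvd_of (hk : Nat.card F = p ^ k) (hl : ∀ x ∈ F, x ^ p ^ l = x) : k ∣ l := by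
  have h1 := h.card_Fx hk l
  rw [le_antisymm h.Fx_le fun x hx => h.mem_Fx.2 ⟨hx, hl x hx⟩, hk] at h1
  rw [Nat.pow_right_injective hp.out.two_le h1]
  exact Nat.gcd_dvd_right _ _

omit h in
theorem card_mono (hK : K ≤ K') : Nat.card K ≤ Nat.card K' :=
  Set.ncard_le_ncard hK (Set.toFinite _)

omit h in
theorem eq_of_card (hK : K ≤ K') (hc : Nat.card K' ≤ Nat.card K) : K = K' :=
  SetLike.coe_injective (Set.eq_of_subset_of_ncard_le hK hc (Set.toFinite _))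

theorem card_Fx_le (hl : 0 < l) : Nat.card (h.Fx l) ≤ p ^ l := by
  obtain ⟨k, -, hk⟩ := h.exists_card
  rw [h.card_Fx hk]
  exact Nat.pow_le_pow_right hp.out.pos (Nat.gcd_le_right _ hl)

theorem eq_Fx (hK : K ≤ F) (h1 : (1 : S.E) ∈ K) (hl : 0 < l) (hc : Nat.card K = p ^ l) :
    K = h.Fx l :=
  eq_of_card (fun _ hx => h.mem_Fx.2 ⟨hK hx, (h.sub hK h1).pow_card hc hx⟩)
    (hc ▸ h.card_Fx_le hl)

theorem dvd_sub (hK : K ≤ F) (h1 : (1 : S.E) ∈ K) (hc : Nat.card K = p ^ l)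
    (hk : Nat.card F = p ^ k) : l ∣ k :=
  (h.sub hK h1).dvd_of hc fun _ hx => h.pow_card hk (hK hx)

/-- The degree of an intermediate field. -/
theorem exists_deg {K₀ : S.NR} {k₀ : ℕ} (h0 : (1 : S.E) ∈ K₀) (hc : Nat.card K₀ = p ^ k₀)
    (h1 : K₀ ≤ K) (h2 : K ≤ F) : ∃ f, 0 < f ∧ Nat.card K = p ^ (k₀ * f) := by
  have hK := h.sub h2 (h1 h0)
  obtain ⟨k, hk, e⟩ := hK.exists_card
  obtain ⟨f, rfl⟩ := hK.dvd_sub h1 h0 hc e
  exact ⟨f, Nat.pos_of_mul_pos_left hk, e⟩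

theorem coprime {K₀ : S.NR} {k₀ f f' : ℕ} (hk : 0 < k₀) (hf : 0 < f) (hf' : 0 < f')
    (hc : Nat.card K₀ = p ^ k₀) (h1 : (1 : S.E) ∈ K) (h1' : (1 : S.E) ∈ K') (h2 : K ≤ F)
    (h2' : K' ≤ F) (e : Nat.card K = p ^ (k₀ * f)) (e' : Nat.card K' = p ^ (k₀ * f'))
    (hi : K ⊓ K' ≤ K₀) : f.Coprime f' := by
  obtain ⟨k, -, hF⟩ := h.exists_card
  have h3 : h.Fx (k₀ * f.gcd f') ≤ K₀ := le_trans (le_inf
    ((h.Fx_mono (Nat.mul_dvd_mul_left _ (Nat.gcd_dvd_left _ _))).trans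
      (h.eq_Fx h2 h1 (Nat.mul_pos hk hf) e).ge)
    ((h.Fx_mono (Nat.mul_dvd_mul_left _ (Nat.gcd_dvd_right _ _))).trans
      (h.eq_Fx h2' h1' (Nat.mul_pos hk hf') e').ge)) hi
  have h4 := card_mono h3
  rw [h.card_Fx hF, Nat.gcd_eq_right ((Nat.mul_dvd_mul_left _ (Nat.gcd_dvd_left _ _)).trans
    (h.dvd_sub h2 h1 e hF)), hc, Nat.pow_le_pow_iff_right hp.out.one_lt] at h4
  have h5 := Nat.gcd_pos_of_pos_left f' hf
  have h6 : f.gcd f' ≤ 1 := by
    by_contra c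
    nlinarith
  exact le_antisymm h6 h5

theorem card_le_V : Nat.card F ≤ Nat.card (LinearMap.range (1 : S.E)) := by
  obtain ⟨v, hv⟩ : ∃ v : V, v ≠ 0 := by
    by_contra c
    push Not at c
    exact h.scal.ne (LinearMap.ext fun v => c _)
  refine Nat.card_le_card_of_injective (fun x => ⟨x.1 v, x.1 v, rfl⟩) fun x y e => ?_
  have h1 := sub_mem x.2 y.2
  exact Subtype.ext (sub_eq_zero.1 ((h.scal.cancel_app (h.scal.mem_sym.2 ⟨h1, h.symm _ h1⟩) rfl
    (sub_eq_zero.2 (congrArg Subtype.val e))).resolve_right hv))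

end SF

/-- The ring generated by a field of symmetric scalars and a smaller ring of scalars. -/
theorem exists_join {Z L : S.NR} (hD : S.Scal D 1) (hZ : S.Scal Z 1) (h1 : Z ≤ D)
    (h2 : L ≤ S.sym D) (h3 : S.sym Z ≤ L) :
    ∃ J : S.NR, S.Scal J 1 ∧ L ≤ J ∧ Z ≤ J ∧ J ≤ D ∧ S.sym J ≤ L := by
  have hL := (sf_sym hD).sub h2 (h3 hZ.e_sym)
  by_cases hs : ∀ x ∈ Z, S.st x = x
  · exact ⟨L, hL.scal, le_rfl, (hZ.sym_eq hs).ge.trans h3, h2.trans (sym_le D), sym_le L⟩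
  push Not at hs
  obtain ⟨θ, hθ, e⟩ := hZ.exists_tr hs
  have h4 : L ⊔ Z ≤ D := sup_le (h2.trans (sym_le D)) h1
  refine ⟨L ⊔ Z, scal_sub hD h4 (le_sup_right (a := L) hZ.mem) (st_sup hL.scal.star hZ.star),
    le_sup_left, le_sup_right, h4, fun x hx => ?_⟩
  let T : S.E → Prop := fun t => ∀ z ∈ Z, t * z + S.st (t * z) ∈ L
  let M : S.NR :=
    { carrier := {x | ∀ t ∈ D, T t → x * t ∈ D ∧ T (x * t)}
      zero_mem' := fun t _ _ => ⟨by simp, fun z _ => by simp⟩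
      add_mem' := fun ha hb t ht k => ⟨by rw [add_mul]; exact add_mem (ha t ht k).1 (hb t ht k).1,
        fun z hz => by
          have := add_mem ((ha t ht k).2 z hz) ((hb t ht k).2 z hz)
          rwa [add_mul, add_mul, st_add, add_add_add_comm]⟩
      neg_mem' := fun ha t ht k => ⟨by rw [neg_mul]; exact neg_mem (ha t ht k).1, fun z hz => by
        have := neg_mem ((ha t ht k).2 z hz)
        rwa [neg_mul, neg_mul, st_neg, ← neg_add]⟩
      mul_mem' := fun ha hb t ht k => by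
        rw [mul_assoc]
        exact ha _ (hb t ht k).1 (hb t ht k).2 }
  have h5 : L ⊔ Z ≤ M := sup_le
    (fun y hy t ht k => ⟨mul_mem (h2 hy).1 ht, fun z hz => by
      rw [mul_assoc, S.st_mul y, (h2 hy).2.1, ← (h2 hy).2.2 _ (hD.star _ (mul_mem ht (h1 hz))),
        ← mul_add]
      exact mul_mem hy (k z hz)⟩)
    fun y hy t ht k => ⟨mul_mem (h1 hy) ht, fun z hz => by
      rw [hD.comm y (h1 hy) t ht, mul_assoc]
      exact k _ (mul_mem hy hz)⟩
  have h6 := (h5 hx.1 1 hD.mem fun z hz => by rw [one_mul]; exact h3 (hZ.tr_sym hz)).2 θ hθ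
  rwa [mul_one, st_mul, hx.2.1, hD.comm _ (hD.star _ (h1 hθ)) x (h4 hx.1), ← mul_add, e,
    mul_one] at h6

/-- A proper inclusion of modules over a field of scalars. -/
theorem card_mul_le {P P' : S.NR} (hF : SF F) (h1 : F ≤ P') (h2 : P' < P) :
    Nat.card P' * Nat.card F ≤ Nat.card P := by
  obtain ⟨x, hx, hn⟩ := SetLike.exists_of_lt h2
  rw [← Nat.card_prod]
  refine Nat.card_le_card_of_injective (fun y : P' × F => (⟨y.1.1 + y.2.1 * x,
    add_mem (h2.le y.1.2) (mul_mem (h2.le (h1 y.2.2)) hx)⟩ : P)) ?_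
  rintro ⟨⟨y, hy⟩, ⟨c, hc⟩⟩ ⟨⟨y', hy'⟩, ⟨c', hc'⟩⟩ e
  have e1 : y + c * x = y' + c' * x := congrArg Subtype.val e
  have e2 : c = c' := by
    by_contra k
    obtain ⟨w, hw, e3⟩ := hF.fld _ (sub_mem hc hc') (sub_ne_zero.2 k)
    have e4 : (c - c') * x = y' - y := by
      rw [sub_mul]
      linear_combination (norm := abel1) e1
    refine hn ?_
    rw [← one_mul x, ← e3, hF.scal.comm _ (sub_mem hc hc') w hw, mul_assoc, e4]
    exact mul_mem (h1 hw) (sub_mem hy' hy)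
  subst e2
  obtain rfl : y = y' := add_right_cancel e1
  rfl

end Vale.Agent.P183W3
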