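import Vale.Agent.P183W3.Blk
import Vale.Agent.P183W3.FF

/-!
The raising steps: simplicity of the commutant and its field of symmetric scalars.
-/

set_option linter.unusedSectionVars false

namespace Vale.Agent.P183W3

open Subgroup Vale.Agent.P183A Vale.Agent.P183NK Vale.Agent.P183NK.FS Vale.Agent.P183W5

variable {p : ℕ} [hp : Fact p.Prime] {V : Type} [AddCommGroup V] [Module (ZMod p) V]
  {S : FS p V} [Finite V] {c n m k : ℕ} {J Z : S.NR} {e f x : S.E} {H a b y : Subgroup S.Eˣ}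
  {col : Subgroup S.Eˣ → Fin m} {z : Fin m → Subgroup S.Eˣ}

/-- The commutant is small. -/
def Bd (c : ℕ) (S : FS p V) (Z : S.NR) (H y : Subgroup S.Eˣ) : Prop :=
  Nat.card (PP S Z H y) ≤ Nat.card (S.sym Z) ^ (4 * c ^ 3)

theorem sym_ctr : x ∈ S.sym J ↔ x ∈ S.ctr J 1 ∧ S.st x = x :=
  ⟨fun h => ⟨⟨h.1, mem_cent_one.2 h.2.2⟩, h.2.1⟩, fun h => ⟨h.1.1, h.2, mem_cent_one.1 h.1.2⟩⟩

namespace Cx

variable (h : Cx c S Z n H b a)
include h

theorem bd_up (h1 : a ≤ y) (h2 : y ≤ b) (hb : Bd c S Z H a) : Bd c S Z H y :=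
  (SF.card_mono (h.anti h1 h2)).trans hb

theorem bd_of {t : ℕ} (ht : t ≤ 4 * c ^ 3) (h1 : Nat.card (PP S Z H a) ≤ Nat.card (S.sym Z) ^ t) :
    Bd c S Z H a :=
  h1.trans (Nat.pow_le_pow_right (by have := h.scal.two_le_card_sym; omega) ht)

theorem bd_four (h1 : Nat.card (PP S Z H a) ≤ Nat.card Z ^ 4) : Bd c S Z H a := by
  refine h.bd_of (t := 2 * 4) ?_ (h1.trans ?_)
  · have := Nat.pow_le_pow_left h.hy.two 3
    omega
  · rw [pow_mul]
    exact Nat.pow_le_pow_left h.scal.card_le_sq 4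

theorem blocks : ∃ B : Finset S.E, (∀ w, w ∈ B ↔ w ∈ S.comps (PP S Z H a) 1) ∧ Dec S Z B ∧
    Inv a B ∧ (S.Simp (PP S Z H a) 1 ∨ 2 ≤ B.card) := by
  obtain ⟨B, h1, h2⟩ := comps_sum h.loc
  refine ⟨B, h1, ⟨fun e he => ((h1 e).1 he).1.1.1, fun e he => ((h1 e).1 he).2.2.2.1,
    fun e he => ((h1 e).1 he).2.1, fun e he => ((h1 e).1 he).2.2.1,
    fun e he f hf => comps_orth ((h1 e).1 he) ((h1 f).1 hf), h2⟩, fun g hg e he => (h1 _).2
      (comps_conj h.loc h.nmP (fun g hg x hx => h.st_conj (h.le hg) hx.1) hg ((h1 e).1 he)), ?_⟩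
  by_cases c : 2 ≤ B.card
  · exact Or.inr c
  refine Or.inl (simp_of_comps h.loc h.sp ((h1 1).1 ?_))
  obtain ⟨w, hw⟩ := Finset.card_le_one_iff_subset_singleton.1 (show B.card ≤ 1 by omega)
  rcases Finset.subset_singleton_iff.1 hw with rfl | rfl
  · exact absurd h2.symm h.scal.ne
  · rw [Finset.sum_singleton] at h2
    exact h2 ▸ Finset.mem_singleton_self w

theorem arm (hA : Arms m k a b col z) (i : Fin m) : Cx c S Z n H b (z i) :=
  h.up (hA.lt_z i).le (hA.z_lt i).le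

theorem arm_le (hA : Arms m k a b col z) (i : Fin m) : PP S Z H (z i) ≤ PP S Z H a :=
  h.anti (hA.lt_z i).le (hA.z_lt i).le

theorem arm_inf (hA : Arms m k a b col z) {i j : Fin m} (hij : i ≠ j) (hx : x ∈ PP S Z H (z i))
    (hx' : x ∈ PP S Z H (z j)) : x ∈ Z :=
  h.inf_le (hA.lt_z i).le (hA.lt_z j).le (hA.sup_eq hij le_rfl (hA.z_lt i) le_rfl (hA.z_lt j)) hx hx'

theorem stage1 (hm : 2 ≤ m) (hg : Good m (k + 1) a b) :
    ∃ a', a ≤ a' ∧ Good m k a' b ∧ (Bd c S Z H a' ∨ S.Simp (PP S Z H a') 1) := by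
  by_cases c1 : Bd c S Z H a
  · exact ⟨a, le_rfl, hg.pred, Or.inl c1⟩
  obtain ⟨B₀, m₀, d₀, i₀, c2 | c2⟩ := h.blocks
  · exact ⟨a, le_rfl, hg.pred, Or.inr c2⟩
  obtain ⟨a', h1, h2⟩ := hg.raise_one hm (fun y => S.Simp (PP S Z H y) 1) fun col z hA i j hi hj => by
    by_contra hij
    choose B mB dB iB cB using fun i => (h.arm hA i).blocks
    have pB : ∀ i, ∀ e ∈ B i, e ∈ PP S Z H (z i) := fun i e he => ((mB i e).1 he).1.1
    have lB : ∀ i, z i ≤ b ⊓ nB (B i) := fun i => le_inf (hA.z_lt i).le (le_nB.2 (iB i))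
    have iB' : ∀ i, Inv a (B i) := fun i => (iB i).mono (hA.lt_z i).le
    have nrf : ∀ i j, i ≠ j → 2 ≤ (B j).card → ¬ Rf (B i) (B j) := fun i j hij c r => by
      have := card_le_one h.scal (dB j) fun e he => h.arm_inf hA hij (r _ (pB i) e he) (pB j e he)
      omega
    have aux : ∀ i j, i ≠ j → 2 ≤ (B i).card → 2 ≤ (B j).card →
        b ⊓ nB B₀ ⊓ (b ⊓ nB (B i)) ≠ a := fun i j hij ci cj e => by
      rcases h.pair d₀ (dB i) (fun e he f hf => ((m₀ e).1 he).1.2.2.2 f (h.arm_le hA i (pB i f hf)))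
        i₀ (iB' i) (fun e he => ((m₀ e).1 he).1.1) (fun e he => h.arm_le hA i (pB i e he))
        e.le with r | r | r
      · exact c1 (h.bd_four r)
      · rcases h.pair (dB i) (dB j) (fun e he f hf => (r _ (fun e he => ((m₀ e).1 he).1) e he).2.2.2
          f (h.arm_le hA j (pB j f hf))) (iB' i) (iB' j) (fun e he => h.arm_le hA i (pB i e he))
          (fun e he => h.arm_le hA j (pB j e he))
          (hA.inf_eq hij (lB i) (h.nB_lt (dB i) ci) (lB j) (h.nB_lt (dB j) cj)).le with r' | r' | r'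
        · exact c1 (h.bd_four r')
        · exact nrf i j hij cj r'
        · exact nrf j i (Ne.symm hij) ci r'
      · refine (hA.lt_z i).not_ge ((le_inf (le_inf (hA.z_lt i).le ?_) (lB i)).trans e.le)
        exact le_of_EE_le (h.arm hA i).nm (h.Hle.trans (le_nB.2 i₀)) (le_trans
          (show _ ≤ P183W3.cB B₀ from fun g hg e he => ((mem_PP.1 (r _ (pB i) e he)).2 g hg).symm) cB_le)
    have ci := (cB i).resolve_left hi
    have cj := (cB j).resolve_left hj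
    rcases hA.inf_or hij (le_inf h.le (le_nB.2 i₀)) (h.nB_lt d₀ c2) (lB i) (h.nB_lt (dB i) ci)
      (lB j) (h.nB_lt (dB j) cj) with e | e
    · exact aux i j hij ci cj e
    · exact aux j i (Ne.symm hij) cj ci e
  exact ⟨a', h1.le, h2.1, Or.inr h2.2⟩

theorem nm_sym : S.NmR a (S.sym (PP S Z H a)) := fun g hg x hx =>
  sym_ctr.2 ⟨(h.nmP.inf h.nmP.cent_one) g hg x (sym_ctr.1 hx).1,
    by rw [h.st_conj (h.le hg) hx.1.1, hx.2.1]⟩

theorem symZ_le : S.sym Z ≤ S.sym (PP S Z H a) := fun x hx =>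
  ⟨h.Z_le hx.1, hx.2.1, fun _ hy => (hy.1.2.2 x hx.1).symm⟩

theorem nm_up (h1 : a ≤ y) (h2 : y ≤ b) : S.NmR (S.om (PP S Z H a)) (PP S Z H y) :=
  (h.up h1 h2).nmP.mono (h.om_P_le.trans (h.Hle.trans h1))

section simp

variable (hs : S.Simp (PP S Z H a) 1)
include hs

theorem scalD : S.Scal (S.ctr (PP S Z H a) 1) 1 := h.scal_of hs.psc inf_le_left

theorem card_P {μ : ℕ} (hd : S.Deg (PP S Z H a) 1 μ) :
    Nat.card (PP S Z H a) ≤ Nat.card (S.sym (S.ctr (PP S Z H a) 1)) ^ (2 * (μ * μ)) := by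
  rw [hd, pow_mul _ 2]
  exact Nat.pow_le_pow_left (h.scalD hs).card_le_sq _

theorem n2P {μ : ℕ} (hd : S.Deg (PP S Z H a) 1 μ) (hc : c ≤ μ) (h1 : a ≤ y) (h2 : y ≤ b) :
    PP S Z H y ≤ S.ctr (PP S Z H a) 1 ∨ PP S Z H y = PP S Z H a :=
  let ⟨_, hx, hn⟩ := exists_nc hs hd (h.hy.two.trans hc)
  h.hy.n2 _ 1 μ hs (h.tc hs hx hn) hd hc _ (h.anti h1 h2) (h.up h1 h2).loc.star (h.nm_up h1 h2)

/-- The symmetric central elements of a smaller commutant are central. -/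
theorem sym_le_ctr (hb : ¬ Bd c S Z H a) (h1 : a ≤ y) (h2 : y ≤ b) :
    S.sym (PP S Z H y) ≤ S.ctr (PP S Z H a) 1 := by
  obtain ⟨μ, -, hd⟩ := hs.exists_deg
  have hy := h.up h1 h2
  have hle := h.anti h1 h2
  by_cases hc : c ≤ μ
  · rcases h.n2P hs hd hc h1 h2 with e | e
    · exact (sym_le _).trans e
    · rw [e]
      exact fun x hx => (sym_ctr.1 hx).1
  intro x hx
  by_contra hn
  have hH : S.om (PP S Z H a) ≤ y := h.om_P_le.trans hy.Hle
  have key : ∃ x ∈ PP S Z H a, S.st x = x ∧ x ∉ S.ctr (PP S Z H a) 1 ∧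
      Set.ncard {w | ∃ g ∈ S.om (PP S Z H a), w = g.1 * x * g⁻¹.1} ≤ μ := by
    obtain ⟨B, mB, dB, iB, cB | cB⟩ := hy.blocks
    · refine ⟨x, hle hx.1, hx.2.1, hn, hs.conj_le hd (hle hx.1) _ ?_ ?_ ?_⟩
      · rintro _ ⟨g, hg, rfl⟩
        exact ⟨_, iso_mem one_mem_PP (om_le_iso _ hg), _,
          iso_mem one_mem_PP (om_le_iso _ (inv_mem hg)), g.mul_inv, g.inv_mul, rfl⟩
      · rintro _ ⟨g, hg, rfl⟩ _ ⟨g', hg', rfl⟩
        exact (hy.nm_sym g (hH hg) x hx).2.2 _ (hy.nm_sym g' (hH hg') x hx).1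
      · rintro _ ⟨g, hg, rfl⟩ _ ⟨g', hg', rfl⟩ hne
        have h3 := sym_ctr.1
          (sub_mem (hy.nm_sym g (hH hg) x hx) (hy.nm_sym g' (hH hg') x hx))
        obtain ⟨w, hw, e⟩ := cB.psc.inv _ h3.1 h3.2 (sub_ne_zero.2 hne)
        exact ⟨w, hle hw.1, e⟩
    · obtain ⟨w, hw, hn⟩ : ∃ w ∈ B, w ∉ S.ctr (PP S Z H a) 1 := by
        by_contra c
        push Not at c
        have := card_le_one h.scal dB fun e he => by
          rw [(hs.sym_idem (c e he) (dB.symm e he) (dB.idem e he)).resolve_left (dB.ne e he)]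
          exact h.scal.mem
        omega
      refine ⟨w, hle ((mB w).1 hw).1.1, dB.symm w hw, hn, le_trans (Set.ncard_le_ncard
        (t := (B : Set S.E)) ?_ (Set.toFinite _)) ?_⟩
      · rintro _ ⟨g, hg, rfl⟩
        exact iB g (hH hg) w hw
      · rw [Set.ncard_coe_finset]
        exact hs.orth_sym_le hd B (fun f hf => ⟨hle ((mB f).1 hf).1.1, dB.ne f hf, dB.idem f hf,
          dB.symm f hf⟩) dB.orth
  obtain ⟨w, h3, h4, h5, h6⟩ := key
  have h7 := h.hy.fam _ 1 hs (h.tc hs h3 h5) w h3 h4 h5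
  have h8 : Nat.card (S.sym (S.ctr (PP S Z H a) 1)) ≤ 2 ^ (2 * c) := by
    have l1 : Nat.card (S.sym (S.ctr (PP S Z H a) 1)) =
        Set.ncard {z | z ∈ S.ctr (PP S Z H a) 1 ∧ S.st z = z} :=
      congrArg Set.ncard (Set.ext fun _ => (h.scalD hs).mem_sym)
    have l2 : c ≤ 2 ^ c := Nat.lt_two_pow_self.le
    rw [l1, two_mul, pow_add]
    exact h7.trans (Nat.mul_le_mul l2 (by omega))
  refine hb (h.bd_of (t := 2 * c * (2 * (μ * μ))) ?_ ((h.card_P hs hd).trans ?_))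
  · have : μ * μ ≤ c * c := Nat.mul_le_mul (by omega) (by omega)
    nlinarith
  · rw [pow_mul _ (2 * c)]
    exact Nat.pow_le_pow_left (h8.trans (Nat.pow_le_pow_left h.scal.two_le_card_sym _)) _

theorem simp_up (hb : ¬ Bd c S Z H a) (h1 : a ≤ y) (h2 : y ≤ b) : S.Simp (PP S Z H y) 1 :=
  simp_of_sp (h.up h1 h2).loc (h.up h1 h2).sp fun _ hf k1 k2 =>
    hs.sym_idem (h.sym_le_ctr hs hb h1 h2 (sym_ctr.2 ⟨hf, k1⟩)) k1 k2

theorem sym_le_F (hb : ¬ Bd c S Z H a) (h1 : a ≤ y) (h2 : y ≤ b) :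
    S.sym (PP S Z H y) ≤ S.sym (S.ctr (PP S Z H a) 1) := fun _ hx =>
  (h.scalD hs).mem_sym.2 ⟨h.sym_le_ctr hs hb h1 h2 hx, hx.2.1⟩

omit hs in
theorem stab_sym (hn : ¬ S.sym (PP S Z H a) ≤ Z) :
    a ≤ b ⊓ nR (S.sym (PP S Z H a)) ∧ b ⊓ nR (S.sym (PP S Z H a)) < b := by
  refine h.lc.stabR h.hr le_rfl h.le h.nm_sym fun c => ?_
  rcases h.bigA.n2 h.hy ((sym_le _).trans PP_le) (fun x hx => by rwa [hx.2.1]) c with e | e
  · exact hn (e.trans h.ctrA.le)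
  · obtain ⟨x, hx, k⟩ := h.bigA.nc h.hy
    exact k (h.bigA.mem_ctr' hx fun w hw => (e.ge hx).2.2 w (e.ge hw).1)

/-- Two arms with larger fields determine the field of a third arm, or the space is small. -/
theorem le_L (hb : ¬ Bd c S Z H a) (hA : Arms m k a b col z) {i j : Fin m} (l : Fin m)
    (hij : i ≠ j) (hi : ¬ S.sym (PP S Z H (z i)) ≤ Z) (hj : ¬ S.sym (PP S Z H (z j)) ≤ Z)
    {L : S.NR} (h1 : S.sym (PP S Z H (z i)) ≤ L) (h2 : S.sym (PP S Z H (z j)) ≤ L)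
    (h3 : L ≤ S.sym (S.ctr (PP S Z H a) 1)) : S.sym (PP S Z H (z l)) ≤ L ∨
      Nat.card (LinearMap.range (1 : S.E)) ≤ Nat.card L ^ (2 * c) := by
  have hD := h.scalD hs
  obtain ⟨J, hJ, l1, l2, l3, l4⟩ := exists_join hD h.scal
    (fun w hw => ⟨h.Z_le hw, mem_cent_one.2 fun d hd => (hd.1.2.2 w hw).symm⟩) h3
    ((h.arm hA i).symZ_le.trans h1)
  obtain ⟨r, -, hr⟩ := hJ.psc.exists_rank
  by_cases hc : c ≤ r
  swap
  · right
    rw [hr, pow_mul]
    have := hJ.two_le_card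
    exact (Nat.pow_le_pow_right (by omega) (by omega)).trans (Nat.pow_le_pow_left
      (hJ.card_le_sq.trans (Nat.pow_le_pow_left (SF.card_mono l4) 2)) c)
  left
  have hB := h.hy.big hJ hr hc
  have l5 : S.om (S.cent J 1) ≤ b := (om_mono (cent_anti l2 1)).trans h.om_le
  have l6 : ∀ R ≤ L, S.om (S.cent J 1) ≤ nR R := fun R hR => NmR.le_nR fun g hg w hw => by
    rw [conj_eq (iso_cent_comm (om_le_iso _ hg) (l1 (hR hw)))]
    exact hw
  have l7 : S.om (S.cent J 1) ≤ a := (le_inf (le_inf l5 (l6 _ h1)) (le_inf l5 (l6 _ h2))).trans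
    (hA.inf_eq hij ((h.arm hA i).stab_sym hi).1 ((h.arm hA i).stab_sym hi).2
      ((h.arm hA j).stab_sym hj).1 ((h.arm hA j).stab_sym hj).2).le
  have l8 := h.sym_le_ctr hs hb (hA.lt_z l).le (hA.z_lt l).le
  rcases hB.n2 h.hy (R := S.sym (PP S Z H (z l)))
    (fun w hw => mem_cent_one.2 fun d hd => hD.comm w (l8 hw) d (l3 hd))
    (fun x hx => by rwa [hx.2.1]) ((h.arm hA l).nm_sym.mono (l7.trans (hA.lt_z l).le)) with e | e
  · rw [(h.hy.bas J 1 r hJ hr).2.1] at e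
    exact fun w hw => l4 (hJ.mem_sym.2 ⟨e hw, hw.2.1⟩)
  · obtain ⟨x, hx, k⟩ := hB.nc h.hy
    exact absurd (hB.mem_ctr' hx fun w hw => (e.ge hx).2.2 w (e.ge hw).1) k

theorem stage2 (hm : 3 ≤ m) (hg : Good m (k + 1) a b) :
    ∃ a', a ≤ a' ∧ Good m k a' b ∧
      (Bd c S Z H a' ∨ S.Simp (PP S Z H a') 1 ∧ S.sym (PP S Z H a') ≤ Z) := by
  by_cases hb : Bd c S Z H a
  · exact ⟨a, le_rfl, hg.pred, Or.inl hb⟩
  obtain ⟨a', h1, h2, h3⟩ := hg.raise (r := 2) hm (fun y => S.sym (PP S Z H y) ≤ Z)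
    fun col z hA => card_le_two_of fun i j l hi hj hl hij hil hjl => by
      have hF := sf_sym (h.scalD hs)
      have hZ := sf_sym h.scal
      obtain ⟨k₀, k0, c0⟩ := hZ.exists_card
      have le0 := fun i => (h.arm hA i).symZ_le
      have leF := fun i => h.sym_le_F hs hb (hA.lt_z i).le (hA.z_lt i).le
      have one := fun i => le0 i h.scal.e_sym
      choose f f0 hf using fun i => hF.exists_deg h.scal.e_sym c0 (le0 i) (leF i)
      obtain ⟨t, t0, ht⟩ := hF.exists_deg h.scal.e_sym c0 ((le0 i).trans (leF i)) le_rfl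
      have cop : ∀ i j, i ≠ j → (f i).Coprime (f j) := fun i j hij =>
        hF.coprime k0 (f0 i) (f0 j) c0 (one i) (one j) (leF i) (leF j) (hf i) (hf j)
          fun w hw => h.scal.mem_sym.2 ⟨h.arm_inf hA hij hw.1.1 hw.2.1, hw.1.2.1⟩
      have dvd : ∀ i, f i ∣ t := fun i =>
        Nat.dvd_of_mul_dvd_mul_left k0 (hF.dvd_sub (leF i) (one i) (hf i) ht)
      have key : ∀ i j l, ¬ S.sym (PP S Z H (z i)) ≤ Z → ¬ S.sym (PP S Z H (z j)) ≤ Z →
          ¬ S.sym (PP S Z H (z l)) ≤ Z → i ≠ j → i ≠ l → j ≠ l →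
          Nat.card (LinearMap.range (1 : S.E)) ≤ p ^ (k₀ * (f i * f j) * (2 * c)) ∧ f l ≤ 2 * c := by
        intro i j l hi hj hl hij hil hjl
        have eq := fun i => hF.eq_Fx (leF i) (one i) (Nat.mul_pos k0 (f0 i)) (hf i)
        have pos := Nat.mul_pos (f0 i) (f0 j)
        rcases h.le_L hs hb hA l hij hi hj (L := hF.Fx (k₀ * (f i * f j)))
          ((eq i).le.trans (hF.Fx_mono (Nat.mul_dvd_mul_left _ (dvd_mul_right _ _))))
          ((eq j).le.trans (hF.Fx_mono (Nat.mul_dvd_mul_left _ (dvd_mul_left _ _)))) hF.Fx_le with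
          e | e
        · have l1 := Nat.dvd_of_mul_dvd_mul_left k0 ((hF.sub (leF l) (one l)).dvd_of (hf l)
            fun w hw => (hF.mem_Fx.1 (e hw)).2)
          have l2 := Nat.Coprime.eq_one_of_dvd
            (Nat.Coprime.mul_right (cop l i hil.symm) (cop l j hjl.symm)) l1
          refine absurd ((SF.eq_of_card (le0 l) ?_).ge.trans (sym_le Z)) hl
          rw [hf l, l2, mul_one, c0]
        · have l1 := e.trans (Nat.pow_le_pow_left (hF.card_Fx_le (Nat.mul_pos k0 pos)) _)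
          rw [← pow_mul] at l1
          refine ⟨l1, ?_⟩
          have l2 := hF.card_le_V.trans l1
          rw [ht, Nat.pow_le_pow_iff_right hp.out.one_lt, mul_assoc] at l2
          have l3 := Nat.le_of_dvd t0 (Nat.Coprime.mul_dvd_of_dvd_of_dvd
            (Nat.Coprime.mul_left (cop i l hil) (cop j l hjl))
            (Nat.Coprime.mul_dvd_of_dvd_of_dvd (cop i j hij) (dvd i) (dvd j)) (dvd l))
          exact Nat.le_of_mul_le_mul_left (l3.trans (Nat.le_of_mul_le_mul_left l2 k0)) pos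
      have l1 := (key i j l hi hj hl hij hil hjl).1
      have l2 := (key j l i hj hl hi hjl hij.symm hil.symm).2
      have l3 := (key i l j hi hl hj hil hij hjl.symm).2
      rw [h.lc.rank] at l1
      have l4 := (Nat.pow_le_pow_left h.scal.card_sym_le n).trans l1
      rw [c0, ← pow_mul, Nat.pow_le_pow_iff_right hp.out.one_lt, mul_assoc] at l4
      have l5 := (Nat.le_of_mul_le_mul_left l4 k0).trans
        (Nat.mul_le_mul_right _ (Nat.mul_le_mul l2 l3))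
      have := h.big
      nlinarith
  exact ⟨a', h1.le, h2, Or.inr ⟨h.simp_up hs hb h1.le h2.lt.le, h3⟩⟩

theorem stage3 (hz : S.sym (PP S Z H a) ≤ Z) (hm : 2 ≤ m) (hg : Good m (k + 1) a b) :
    ∃ a', a ≤ a' ∧ Good m k a' b ∧ Bd c S Z H a' := by
  obtain ⟨μ, -, hd⟩ := hs.exists_deg
  have h1 : Nat.card (S.sym (S.ctr (PP S Z H a) 1)) ≤ Nat.card (S.sym Z) := SF.card_mono
    fun x hx => h.scal.mem_sym.2 ⟨hz (sym_ctr.2 ⟨hx.1, hx.2.1⟩), hx.2.1⟩
  have h2 := h.hy.two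
  have h3 : 2 ≤ 4 * c ^ 3 := by have := Nat.pow_le_pow_left h2 3; omega
  by_cases hc : c ≤ μ
  swap
  · refine ⟨a, le_rfl, hg.pred, h.bd_of ?_ ((h.card_P hs hd).trans (Nat.pow_le_pow_left h1 _))⟩
    have : μ * μ ≤ c * c := Nat.mul_le_mul (by omega) (by omega)
    nlinarith
  obtain ⟨a', k1, k2⟩ := hg.raise_one hm (Bd c S Z H) fun col z hA i j hi hj => by
    by_contra hij
    have key : ∀ i, ¬ Bd c S Z H (z i) → PP S Z H (z i) = PP S Z H a := fun i hi =>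
      (h.n2P hs hd hc (hA.lt_z i).le (hA.z_lt i).le).resolve_left fun e => hi
        ((h.arm hA i).bd_of h3 ((SF.card_mono e).trans ((h.scalD hs).card_le_sq.trans
          (Nat.pow_le_pow_left h1 2))))
    refine hi ((h.arm hA i).bd_of h3 (le_trans (SF.card_mono fun x hx => ?_) h.scal.card_le_sq))
    exact h.arm_inf hA hij hx ((key j hj).ge ((key i hi).le hx))
  exact ⟨a', k1.le, k2⟩

end simp

theorem stage4 (hb : Bd c S Z H a) (hm : 2 ≤ m) (hg : Good m (k + (4 * c ^ 3 + 1)) a b) :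
    ∃ a', a ≤ a' ∧ Good m k a' b ∧ PP S Z H a' ≤ Z := by
  have h2 := h.scal.two_le_card_sym
  refine Good.potential (fun y => Nat.log (Nat.card (S.sym Z)) (Nat.card (PP S Z H y)))
    (fun y => PP S Z H y ≤ Z) (x := a) (fun y k h1 hg hn => ?_) _ a le_rfl ?_ hg
  · have hy := h.up h1 hg.lt.le
    obtain ⟨a', k1, k2, k3⟩ := hg.raise_one hm (fun w => PP S Z H w ≠ PP S Z H y)
      fun col z hA i j hi hj => by
        by_contra hij
        exact hn fun x hx => hy.arm_inf hA hij ((not_not.1 hi).ge hx) ((not_not.1 hj).ge hx)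
    refine ⟨a', k1.le, k2, Or.inr ?_⟩
    have k4 := card_mul_le (sf_sym h.scal) ((sym_le Z).trans (hy.up k1.le k2.lt.le).Z_le)
      (lt_of_le_of_ne (hy.anti k1.le k2.lt.le) k3)
    have k5 := Nat.log_mono_right (b := Nat.card (S.sym Z)) k4
    rw [Nat.log_mul_base h2 Nat.card_pos.ne'] at k5
    exact k5
  · exact (Nat.log_mono_right hb).trans (Nat.log_pow h2 _).le

theorem main (hm : 3 ≤ m) (hg : Good m (k + (4 * c ^ 3 + 1) + 1 + 1 + 1) a b) :
    ∃ a', a ≤ a' ∧ Good m k a' b ∧ S.Abs Z (EE H a') := by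
  have h2 : 2 ≤ m := by omega
  have key : ∃ a', a ≤ a' ∧ Good m (k + (4 * c ^ 3 + 1)) a' b ∧ Bd c S Z H a' := by
    obtain ⟨a₁, l1, g1, c1 | c1⟩ := h.stage1 h2 hg
    · exact ⟨a₁, l1, g1.pred.pred, c1⟩
    have h1 := h.up l1 g1.lt.le
    obtain ⟨a₂, l2, g2, c2 | c2⟩ := h1.stage2 c1 hm g1
    · exact ⟨a₂, l1.trans l2, g2.pred, c2⟩
    obtain ⟨a₃, l3, g3⟩ := (h1.up l2 g2.lt.le).stage3 c2.1 c2.2 h2 g2
    exact ⟨a₃, l1.trans (l2.trans l3), g3⟩
  obtain ⟨a₁, l1, g1, c1⟩ := key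
  obtain ⟨a₂, l2, g2, c2⟩ := (h.up l1 g1.lt.le).stage4 c1 h2 g1
  exact ⟨a₂, l1.trans l2, g2, fun x hx hc => c2 (mem_PP.2 ⟨hx, fun g hg => (hc g hg).symm⟩)⟩

end Cx

/-- Absolute irreducibility of `E_a` after boundedly many raising steps. -/
theorem w3 {c₁ c₂ c₃ c₄ : ℕ} (h1 : N1 c₁) (h2 : N2 c₂) (h3 : FAM c₃) (h4 : BAS c₄) (h5 : ISO3) :
    W3 := by
  let c := c₁ + c₂ + c₃ + c₄ + 2
  refine ⟨8 * c ^ 3, 3, 4 * c ^ 3 + 1 + 1 + 1 + 1, fun p _ V _ _ _ S Z n H a b m k lc hn hm hr hg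
    hi => Cx.main (c := c) ⟨⟨by omega, fun J e m l1 l2 l3 l4 => h1 p V S J e m l1 l2 l3 (by omega),
      fun J e m l1 l2 l3 l4 => h2 p V S J e m l1 l2 l3 (by omega), fun J e l1 l2 x l3 l4 l5 =>
        (h3 p V S J e l1 l2 x l3 l4 l5).trans (Nat.mul_le_mul_right _ (by omega)),
      fun D e r l1 l2 => ?_, h5 p V S⟩, lc, hn, hr, hi, hg.lt.le⟩ hm hg⟩
  obtain ⟨k1, k2, k3, k4⟩ := h4 p V S D e r l1 l2
  exact ⟨k1, k2, k3, fun l => k4 (by omega)⟩

end Vale.Agent.P183W3
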